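import Vale.Agent.P253.S445.Fix
import Vale.Agent.P253.R2.H445.All

/-!
P253: uniformization from a one-parameter semigroup with an attracting fixed point.
-/

open scoped Manifold ContDiff Topology Bundle
open Set Metric Complex Filter Bundle IsManifold Manifold Vale.Agent.P253.Mfd
  Vale.Agent.P253.CStar

set_option maxSynthPendingDepth 3
set_option linter.unusedSectionVars false

noncomputable section

namespace Vale.Agent.P253.S445

open Vale.Agent.P253.R2 Vale.Agent.P253.R2.H445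

variable {E : Type*} [NormedAddCommGroup E] [NormedSpace ℂ E] [FiniteDimensional ℂ E]
  {M : Type*} [MetricSpace M] [ChartedSpace E M] [IsManifold 𝓘(ℂ, E) 1 M]
  {ρ : ℝ → M → M} {ψ : ℂ → M → M} {p : M}

variable (E) in
/-- `p` is an attracting fixed point of the semigroup `ρ`: the differentials of `ρ t`, `t ≥ 0`,
at `p` are `diag (exp (-t m_j))` in a basis of the tangent space, with integers `m_j > 0` such that
`m_i < 2 m_j` for all `i`, `j` -/
def IsAttrFixedPoint (ρ : ℝ → M → M) (p : M) : Prop :=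
  (∀ t : ℝ, 0 ≤ t → ρ t p = p) ∧
  ∃ (b : Module.Basis (Fin (Module.finrank ℂ E)) ℂ E) (m : Fin (Module.finrank ℂ E) → ℕ),
    (∀ j, 0 < m j) ∧ (∀ i j, m i < 2 * m j) ∧
    ∀ t : ℝ, 0 ≤ t → ∀ j,
      mfderiv 𝓘(ℂ, E) 𝓘(ℂ, E) (ρ t) p (b j) = exp (-(t * m j)) • b j

/-- a linear map which is diagonal in a basis -/
theorem eq_LE_of_diag {ι : Type*} [Fintype ι] {b : Module.Basis ι ℂ E}
    {m : ι → ℝ} {ζ : ℂ} {T₀ : E →L[ℂ] E} (hw : ∀ j, T₀ (b j) = exp (ζ * m j) • b j) (v : E) :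
    T₀ v = LE (b.equivFun.toContinuousLinearEquiv) m ζ v := by
  classical
  set φ : E ≃L[ℂ] (ι → ℂ) := b.equivFun.toContinuousLinearEquiv with hφ
  let T : E →ₗ[ℂ] E := T₀.toLinearMap
  let L : E →ₗ[ℂ] E := (LEL φ m ζ).toLinearMap
  have hTL : T = L := by
    apply b.ext
    intro j
    apply ext_coord (φ := φ)
    intro k
    have h1 : T (b j) = exp (ζ * m j) • b j := hw j
    have h2 : φ (L (b j)) k = Complex.exp (ζ * (m k : ℂ)) * φ (b j) k := LE_coord _ _ _
    rw [h1, h2, map_smul, Pi.smul_apply, smul_eq_mul]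
    have h3 : φ (b j) k = if j = k then 1 else 0 := by
      simp only [hφ]
      change b.equivFun (b j) k = _
      rw [Module.Basis.equivFun_self]
    rw [h3]
    by_cases hjk : j = k
    · subst hjk
      rw [if_pos rfl]
    · rw [if_neg hjk]; simp
  exact congrArg (fun S : E →ₗ[ℂ] E => S v) hTL

/-- `M` is a point if `E = 0` -/
theorem subsingleton_of [ConnectedSpace M] [Subsingleton E] : Subsingleton M := by
  have h1 : DiscreteTopology M := by
    rw [discreteTopology_iff_isOpen_singleton]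
    intro x
    have h2 : (chartAt E x).source = {x} := by
      ext y
      constructor
      · intro hy
        exact (chartAt E x).injOn hy (mem_chart_source E x) (Subsingleton.elim _ _)
      · rintro rfl
        exact mem_chart_source E y
    rw [← h2]
    exact (chartAt E x).open_source
  exact PreconnectedSpace.trivial_of_discrete

theorem periodic' [ConnectedSpace M] {ι : Type*} [Fintype ι] (h : IsHolCFlow E ψ)
    (hp : ∀ ζ, ψ ζ p = p)
    {φ : E ≃L[ℂ] (ι → ℂ)} {m : ι → ℝ} (hm : ∀ j, 0 < m j) (hint : ∀ j, ∃ k : ℤ, m j = k)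
    (hpinch : ∀ i j, m i < 2 * m j)
    (hw : ∀ (ζ : ℂ) (v : E), (mfderiv 𝓘(ℂ, E) 𝓘(ℂ, E) (ψ ζ) p : E → E) v = LE φ m (-ζ) v)
    (x : M) : ψ (2 * Real.pi * I) x = x := by
  rcases isEmpty_or_nonempty ι with hι | hι
  · have h1 : Subsingleton E := φ.toEquiv.subsingleton
    have h2 : Subsingleton M := subsingleton_of (E := E)
    exact Subsingleton.elim _ _
  · exact periodic h hp hm hint hpinch hw x

variable [IsManifold 𝓘(ℝ, E) ∞ M]
  [RiemannianBundle (fun x : M => TangentSpace 𝓘(ℝ, E) x)]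
  [IsContMDiffRiemannianBundle 𝓘(ℝ, E) ∞ E (fun x : M => TangentSpace 𝓘(ℝ, E) x)]
  [IsRiemannianManifold 𝓘(ℝ, E) M]

/-- Uniformization for semigroups which extend to `ℂ` and have an attracting fixed point. -/
theorem main_attr (hK : IsKahler E M) [CompleteSpace M] [NoncompactSpace M] [ConnectedSpace M]
    (hnn : ∀ x : M, NonnegBisectionalAt E x) (hψ : IsHolCFlow E ψ)
    (he : ∀ t : ℝ, 0 ≤ t → ∀ x, ψ t x = ρ t x) (hp : IsAttrFixedPoint E ρ p)
    (hpos : PosBisectionalAt E p) :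
    ∃ F : M ≃ₘ^1⟮𝓘(ℂ, E), 𝓘(ℂ, E)⟯ E, F p = 0 ∧
      (∀ v : E, (mfderiv 𝓘(ℂ, E) 𝓘(ℂ, E) F p : E → E) v = v) ∧
      ∀ t : ℝ, 0 ≤ t → ∀ x : M, F (ρ t x) =
        (mfderiv 𝓘(ℂ, E) 𝓘(ℂ, E) (ρ t) p : E → E) (F x) := by
  obtain ⟨hfix, b, m, hm, hpinch, hw⟩ := hp
  have hfixψ : ∀ ζ, ψ ζ p = p := fixed_pos hψ (fun t ht => by rw [he t ht, hfix t ht])
  have hρt : ∀ t : ℝ, 0 ≤ t → ∀ v : E, (mfderiv 𝓘(ℂ, E) 𝓘(ℂ, E) (ρ t) p : E → E) v =
      LE b.equivFun.toContinuousLinearEquiv (fun j => (m j : ℝ)) (-t) v := by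
    intro t ht v
    let T : E →L[ℂ] E := mfderiv 𝓘(ℂ, E) 𝓘(ℂ, E) (ρ t) p
    have hT : ∀ j, T (b j) = exp (-(t : ℂ) * ((m j : ℝ) : ℂ)) • b j := by
      intro j
      have h2 : -(t : ℂ) * ((m j : ℝ) : ℂ) = -(t * m j) := by push_cast; ring
      rw [h2]
      exact hw t ht j
    exact eq_LE_of_diag (m := fun j => (m j : ℝ)) hT v
  have hwψ : ∀ (ζ : ℂ) (v : E), (mfderiv 𝓘(ℂ, E) 𝓘(ℂ, E) (ψ ζ) p : E → E) v =
      LE b.equivFun.toContinuousLinearEquiv (fun j => (m j : ℝ)) (-ζ) v := by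
    refine weights_pos hψ hfixψ (fun t ht v => ?_)
    have h1 : ψ t = ρ t := funext fun x => he t ht x
    rw [h1]
    exact hρt t ht v
  have hper := periodic' hψ hfixψ (fun j => by exact_mod_cast hm j)
    (fun j => ⟨m j, by push_cast; rfl⟩) (fun i j => by exact_mod_cast hpinch i j) hwψ
  have hC : HolC E (fun ζ => ψ (-ζ)) := by
    refine ⟨fun x => by rw [neg_zero, hψ.zero], fun s t x => ?_, fun x => ?_, ?_⟩
    · rw [← hψ.add]
      congr 1
      ring
    · have h1 := hper (ψ (-(2 * Real.pi * I)) x)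
      rw [← hψ.add, add_neg_cancel, hψ.zero] at h1
      exact h1.symm
    · have h1 : ContMDiff (𝓘(ℂ, ℂ).prod 𝓘(ℂ, E)) 𝓘(ℂ, ℂ) 1 (fun q : ℂ × M => -q.1) :=
        contDiff_neg.contMDiff.comp contMDiff_fst
      exact hψ.holo.comp (h1.prodMk contMDiff_snd)
  obtain ⟨F, h0, h1, h2, -⟩ := main_psi hK hnn hpos hC (fun ζ => hfixψ (-ζ))
    b.equivFun.toContinuousLinearEquiv (m := fun j => (m j : ℝ))
    (fun j => by exact_mod_cast hm j) (fun ζ v => by
      have h3 := hwψ (-ζ) v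
      rwa [neg_neg] at h3)
  refine ⟨F, h0, h1, fun t ht x => ?_⟩
  rw [hρt t ht (F x)]
  have h3 := h2 (-t) x
  simp only [neg_neg] at h3
  rw [he t ht] at h3
  exact h3

end Vale.Agent.P253.S445
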