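import Vale.Agent.P253.S445.Attr

/-!
P253: on a manifold biholomorphic to `ℂⁿ` there is a one-parameter semigroup of holomorphic maps
with an attracting fixed point (homotheties).
-/

open scoped Manifold ContDiff Topology Bundle
open Set Complex Bundle IsManifold Manifold Vale.Agent.P253.Mfd Vale.Agent.P253.CStar

set_option linter.unusedSectionVars false

noncomputable section

namespace Vale.Agent.P253.S445

open Vale.Agent.P253.R2 Vale.Agent.P253.R2.H445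

variable {E : Type*} [NormedAddCommGroup E] [NormedSpace ℂ E] [FiniteDimensional ℂ E]
  {M : Type*} [MetricSpace M] [ChartedSpace E M] [IsManifold 𝓘(ℂ, E) 1 M]

/-- the homotheties transported to `M` -/
def thom (F : M ≃ₘ^1⟮𝓘(ℂ, E), 𝓘(ℂ, E)⟯ E) (t : ℝ) (x : M) : M :=
  F.symm (exp (-(t : ℂ)) • F x)

theorem thom_zero (F : M ≃ₘ^1⟮𝓘(ℂ, E), 𝓘(ℂ, E)⟯ E) (x : M) : thom F 0 x = x := by simp [thom]

theorem thom_add (F : M ≃ₘ^1⟮𝓘(ℂ, E), 𝓘(ℂ, E)⟯ E) (s t : ℝ) (x : M) :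
    thom F (s + t) x = thom F s (thom F t x) := by
  simp only [thom, F.apply_symm_apply, smul_smul, ← exp_add]
  congr 3
  push_cast
  ring

theorem thom_smooth (F : M ≃ₘ^1⟮𝓘(ℂ, E), 𝓘(ℂ, E)⟯ E) :
    ContMDiff (𝓘(ℝ, ℝ).prod 𝓘(ℝ, E)) 𝓘(ℝ, E) ∞ (fun q : ℝ × M => thom F q.1 q.2) := by
  have h1 : ContMDiff 𝓘(ℝ, E) 𝓘(ℝ, E) ∞ F :=
    contMDiff_real (F.contMDiff.mdifferentiable (by simp))
  have h2 : ContMDiff 𝓘(ℝ, E) 𝓘(ℝ, E) ∞ F.symm :=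
    contMDiff_real (F.symm.contMDiff.mdifferentiable (by simp))
  have h3 : ContMDiff (𝓘(ℝ, ℝ).prod 𝓘(ℝ, E)) 𝓘(ℝ, ℂ) ∞
      (fun q : ℝ × M => exp (-(q.1 : ℂ))) := by
    have h4 : ContDiff ℝ ∞ (fun t : ℝ => exp (-(t : ℂ))) :=
      (ofRealCLM.contDiff.neg).cexp
    exact h4.contMDiff.comp contMDiff_fst
  have h5 : ContMDiff (𝓘(ℝ, ℝ).prod 𝓘(ℝ, E)) 𝓘(ℝ, E) ∞ (fun q : ℝ × M => F q.2) :=
    h1.comp contMDiff_snd
  have h6 : ContMDiff (𝓘(ℝ, ℝ).prod 𝓘(ℝ, E)) 𝓘(ℝ, E) ∞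
      (fun q : ℝ × M => exp (-(q.1 : ℂ)) • F q.2) := by
    have h7 : ContDiff ℝ ∞ (fun q : ℂ × E => q.1 • q.2) :=
      (ContinuousLinearMap.lsmul ℝ ℂ (E := E)).isBoundedBilinearMap.contDiff
    exact h7.contMDiff.comp (h3.prodMk_space h5)
  exact h2.comp h6

theorem thom_holo (F : M ≃ₘ^1⟮𝓘(ℂ, E), 𝓘(ℂ, E)⟯ E) (t : ℝ) :
    MDifferentiable 𝓘(ℂ, E) 𝓘(ℂ, E) (thom F t) := by
  have h1 : MDifferentiable 𝓘(ℂ, E) 𝓘(ℂ, E) F := F.contMDiff.mdifferentiable (by simp)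
  have h2 : MDifferentiable 𝓘(ℂ, E) 𝓘(ℂ, E) F.symm :=
    F.symm.contMDiff.mdifferentiable (by simp)
  have h3 : MDifferentiable 𝓘(ℂ, E) 𝓘(ℂ, E) (fun z : E => exp (-(t : ℂ)) • z) :=
    (differentiable_id.const_smul (exp (-(t : ℂ)))).mdifferentiable
  exact h2.comp (h3.comp h1)

theorem thom_semi (F : M ≃ₘ^1⟮𝓘(ℂ, E), 𝓘(ℂ, E)⟯ E) : IsSemi E (thom F) where
  zero := thom_zero F
  add s t _ _ x := thom_add F s t x
  smooth _ _ _ := (thom_smooth F).contMDiffAt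
  holo t _ := thom_holo F t

theorem thom_attr (F : M ≃ₘ^1⟮𝓘(ℂ, E), 𝓘(ℂ, E)⟯ E) :
    IsAttrFixedPoint E (thom F) (F.symm 0) := by
  refine ⟨fun t _ => ?_, Module.finBasis ℂ E, fun _ => 1, fun _ => one_pos,
    fun _ _ => by norm_num, fun t _ j => ?_⟩
  · simp [thom]
  · set v := Module.finBasis ℂ E j
    let T1 : E →L[ℂ] E := mfderiv 𝓘(ℂ, E) 𝓘(ℂ, E) F (F.symm 0)
    let T2 : E →L[ℂ] E := mfderiv 𝓘(ℂ, E) 𝓘(ℂ, E) F.symm 0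
    have h1 : HasMFDerivAt 𝓘(ℂ, E) 𝓘(ℂ, E) F (F.symm 0) T1 :=
      ((F.contMDiff.mdifferentiable (by simp)) _).hasMFDerivAt
    have h2 : ∀ y : E, y = 0 → HasMFDerivAt 𝓘(ℂ, E) 𝓘(ℂ, E) F.symm y T2 := by
      rintro _ rfl
      exact ((F.symm.contMDiff.mdifferentiable (by simp)) _).hasMFDerivAt
    have hF0 : F (F.symm 0) = 0 := F.apply_symm_apply 0
    have h3 : HasMFDerivAt 𝓘(ℂ, E) 𝓘(ℂ, E) (F.symm ∘ F) (F.symm 0) (T2.comp T1) :=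
      (h2 _ hF0).comp _ h1
    have h4 : (F.symm ∘ F : M → M) = id := funext fun x => F.symm_apply_apply x
    rw [h4] at h3
    have h5 : (T2.comp T1 : E →L[ℂ] E) = ContinuousLinearMap.id ℂ E :=
      hasMFDerivAt_unique h3 (hasMFDerivAt_id _)
    set a : ℂ := exp (-(t : ℂ)) with ha
    have h6 : HasMFDerivAt 𝓘(ℂ, E) 𝓘(ℂ, E) (fun z : E => a • z) (F (F.symm 0))
        (a • ContinuousLinearMap.id ℂ E) :=
      ((hasFDerivAt_id (𝕜 := ℂ) (F (F.symm 0))).const_smul a).hasMFDerivAt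
    have h7 : HasMFDerivAt 𝓘(ℂ, E) 𝓘(ℂ, E) (F.symm ∘ (fun z : E => a • z) ∘ F) (F.symm 0)
        (T2.comp ((a • ContinuousLinearMap.id ℂ E).comp T1)) :=
      (h2 _ (by simp [hF0])).comp _ (h6.comp _ h1)
    have h8 : (mfderiv 𝓘(ℂ, E) 𝓘(ℂ, E) (thom F t) (F.symm 0) : E →L[ℂ] E) =
        T2.comp ((a • ContinuousLinearMap.id ℂ E).comp T1) := h7.mfderiv
    have h9 : (mfderiv 𝓘(ℂ, E) 𝓘(ℂ, E) (thom F t) (F.symm 0) : E →L[ℂ] E) v =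
        a • (T2.comp T1) v := by
      rw [h8]
      change T2 (a • T1 v) = a • T2 (T1 v)
      exact map_smul T2 _ _
    rw [h5] at h9
    simp only [Nat.cast_one, mul_one]
    exact h9

/-- The converse: `ℂⁿ` has a semigroup with an attracting fixed point. -/
theorem converse_semi (F : M ≃ₘ^1⟮𝓘(ℂ, E), 𝓘(ℂ, E)⟯ E) :
    ∃ ρ : ℝ → M → M, H567.IsHolSemigroup E ρ ∧ ∃ p : M, IsAttrFixedPoint E ρ p :=
  ⟨thom F, (thom_semi F).isHolSemigroup, F.symm 0, thom_attr F⟩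

variable [IsManifold 𝓘(ℝ, E) ∞ M]
  [RiemannianBundle (fun x : M => TangentSpace 𝓘(ℝ, E) x)]
  [IsContMDiffRiemannianBundle 𝓘(ℝ, E) ∞ E (fun x : M => TangentSpace 𝓘(ℝ, E) x)]
  [IsRiemannianManifold 𝓘(ℝ, E) M]

/-- all the consequences for semigroups with an attracting fixed point -/
theorem final (hK : IsKahler E M) [CompleteSpace M] [NoncompactSpace M] [ConnectedSpace M]
    (hnn : ∀ x : M, NonnegBisectionalAt E x) (hExt : HasSExt E M) :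
    (∀ ρ : ℝ → M → M, H567.IsHolSemigroup E ρ → ∀ p : M, IsAttrFixedPoint E ρ p →
      PosBisectionalAt E p →
      ∃ F : M ≃ₘ^1⟮𝓘(ℂ, E), 𝓘(ℂ, E)⟯ E, F p = 0 ∧
        (∀ v : E, (mfderiv 𝓘(ℂ, E) 𝓘(ℂ, E) F p : E → E) v = v) ∧
        ∀ t : ℝ, 0 ≤ t → ∀ x : M, F (ρ t x) =
          (mfderiv 𝓘(ℂ, E) 𝓘(ℂ, E) (ρ t) p : E → E) (F x)) ∧
    ((∀ x : M, PosBisectionalAt E x) →
      (Nonempty (M ≃ₘ^1⟮𝓘(ℂ, E), 𝓘(ℂ, E)⟯ E) ↔
        ∃ ρ : ℝ → M → M, H567.IsHolSemigroup E ρ ∧ ∃ p : M, IsAttrFixedPoint E ρ p)) := by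
  refine ⟨fun ρ hρ p hp hpos => ?_, fun hall => ⟨?_, ?_⟩⟩
  · obtain ⟨ψ, hψ, he⟩ := hExt ρ hρ
    exact main_attr hK hnn hψ he hp hpos
  · rintro ⟨F⟩
    exact converse_semi F
  · rintro ⟨ρ, hρ, p, hp⟩
    obtain ⟨ψ, hψ, he⟩ := hExt ρ hρ
    obtain ⟨F, -⟩ := main_attr hK hnn hψ he hp (hall p)
    exact ⟨F⟩

end Vale.Agent.P253.S445
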