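import Mathlib.Topology.Instances.Real.Lemmas

/-!
P253: globally asymptotically stable points of one-parameter semigroups.
-/

namespace Vale.Agent.P253.S445

open Filter Topology

/-- `ρ t` converges to the point `p` as `t → ∞`: `ρ t x` tends to `p` for every `x`, and `p` is
stable, that is, for every neighbourhood `W` of `p` some neighbourhood `U` of `p` is mapped into
`W` by `ρ t` for all large `t`. (In other words, `p` is globally asymptotically stable.) -/
def ConvergesTo {M : Type*} [TopologicalSpace M] (ρ : ℝ → M → M) (p : M) : Prop :=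
  (∀ x : M, Tendsto (fun t : ℝ => ρ t x) atTop (𝓝 p)) ∧
    ∀ W ∈ 𝓝 p, ∃ U ∈ 𝓝 p, ∀ᶠ t : ℝ in atTop, ∀ x ∈ U, ρ t x ∈ W

end Vale.Agent.P253.S445
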