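import Vale.Agent.P253.R2.H445.Dom
import Vale.Agent.P253.H567.Def

/-!
P253: domains of `ℂⁿ` which are mapped into themselves by the positive times of a holomorphic
flow: starlike domains, half-tubes. From the extension property for one-parameter semigroups.
-/

open scoped Manifold ContDiff Topology Bundle
open Set Metric Complex Filter Bundle IsManifold Manifold Vale.Agent.P253.Mfd
  Vale.Agent.P253.CStar

set_option maxSynthPendingDepth 3
set_option linter.unusedSectionVars false

noncomputable section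

namespace Vale.Agent.P253.S445

open Vale.Agent.P253.R2 Vale.Agent.P253.R2.H445

/-- identity theorem on the positive real axis, local form -/
theorem eqOn_of_pos {F : Type*} [NormedAddCommGroup F] [NormedSpace ℂ F] [CompleteSpace F]
    {g h : ℂ → F} {ε : ℝ} (hε : 0 < ε) (hg : DifferentiableOn ℂ g (ball 0 ε))
    (hh : DifferentiableOn ℂ h (ball 0 ε))
    (heq : ∀ t : ℝ, 0 < t → t < ε → g t = h t) : EqOn g h (ball 0 ε) := by
  have h1 := hg.analyticOnNhd isOpen_ball
  have h2 := hh.analyticOnNhd isOpen_ball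
  refine h1.eqOn_of_preconnected_of_frequently_eq h2 (convex_ball (0:ℂ) ε).isPreconnected
    (mem_ball_self hε) ?_
  have h3 : Tendsto (fun t : ℝ => (t:ℂ)) (𝓝[>] 0) (𝓝[≠] 0) := by
    rw [tendsto_nhdsWithin_iff]
    constructor
    · have hc : Continuous (fun t : ℝ => (t:ℂ)) := by fun_prop
      have := hc.tendsto 0
      simp only [ofReal_zero] at this
      exact this.mono_left nhdsWithin_le_nhds
    · filter_upwards [self_mem_nhdsWithin] with t ht
      have ht' : (0:ℝ) < t := ht
      simp only [mem_compl_iff, mem_singleton_iff, ofReal_eq_zero]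
      exact ht'.ne'
  refine h3.frequently (Eventually.frequently ?_)
  filter_upwards [Ioo_mem_nhdsGT hε] with t ht
  exact heq t ht.1 ht.2

/-- identity theorem on the positive real axis -/
theorem eq_of_pos {F : Type*} [NormedAddCommGroup F] [NormedSpace ℂ F] [CompleteSpace F]
    {g h : ℂ → F} (hg : Differentiable ℂ g) (hh : Differentiable ℂ h)
    (heq : ∀ t : ℝ, 0 ≤ t → g t = h t) (ζ : ℂ) : g ζ = h ζ :=
  eqOn_of_pos (ε := ‖ζ‖ + 1) (by positivity) hg.differentiableOn hh.differentiableOn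
    (fun t ht _ => heq t ht.le) (by simp)

variable {E : Type*} [NormedAddCommGroup E] [NormedSpace ℂ E] [FiniteDimensional ℂ E]
  {M : Type*} [MetricSpace M] [ChartedSpace E M] [IsManifold 𝓘(ℂ, E) 1 M]

variable (E) in
/-- `ρ` is a smooth one-parameter semigroup of holomorphic maps (only times `t ≥ 0` matter) -/
structure IsSemi (ρ : ℝ → M → M) : Prop where
  zero : ∀ x, ρ 0 x = x
  add : ∀ s t, 0 ≤ s → 0 ≤ t → ∀ x, ρ (s + t) x = ρ s (ρ t x)
  smooth : ∀ t, 0 ≤ t → ∀ x,
    ContMDiffAt (𝓘(ℝ, ℝ).prod 𝓘(ℝ, E)) 𝓘(ℝ, E) ∞ (fun q : ℝ × M => ρ q.1 q.2) (t, x)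
  holo : ∀ t, 0 ≤ t → MDifferentiable 𝓘(ℂ, E) 𝓘(ℂ, E) (ρ t)

theorem IsSemi.isHolSemigroup {ρ : ℝ → M → M} (h : IsSemi E ρ) : H567.IsHolSemigroup E ρ where
  zero := h.zero
  add s t x hs ht := h.add s t hs ht x
  cont q hq := (h.smooth q.1 hq q.2).continuousAt.continuousWithinAt
  holo := h.holo

variable (E M) in
/-- the extension property for semigroups -/
def HasSExt : Prop :=
  ∀ ρ : ℝ → M → M, H567.IsHolSemigroup E ρ →
    ∃ ψ : ℂ → M → M, IsHolCFlow E ψ ∧ ∀ t : ℝ, 0 ≤ t → ∀ x, ψ t x = ρ t x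

variable [IsManifold 𝓘(ℝ, E) ∞ M]

/-- A domain of `E` biholomorphic to `M` which is mapped into itself by the positive times of a
holomorphic flow of `E` is invariant under all complex times. -/
theorem inv_complex (hExt : HasSExt E M) {e : OpenPartialHomeomorph M E}
    (he : e ∈ maximalAtlas 𝓘(ℂ, E) 1 M) (hs : e.source = univ) {σ : ℂ → E → E}
    (hσ : IsHolCFlow E σ)
    (hinv : ∀ t : ℝ, 0 ≤ t → ∀ z ∈ e.target, σ t z ∈ e.target) (ζ : ℂ)
    {z : E} (hz : z ∈ e.target) : σ ζ z ∈ e.target := by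
  have hCE : CompleteSpace E := FiniteDimensional.complete ℂ E
  have hsrc : ∀ x : M, x ∈ e.source := fun x => hs ▸ mem_univ x
  have heh : ContMDiff 𝓘(ℂ, E) 𝓘(ℂ, E) 1 e := by
    have h1 := contMDiffOn_of_mem_maximalAtlas he
    rwa [hs, contMDiffOn_univ] at h1
  have hesym := contMDiffOn_symm_of_mem_maximalAtlas he
  have hσd : Differentiable ℂ (fun q : ℂ × E => σ q.1 q.2) := by
    have h1 := hσ.holo
    rw [← modelWithCornersSelf_prod, chartedSpaceSelf_prod] at h1
    exact (contMDiff_iff_contDiff.1 h1).differentiable (by simp)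
  set ρ : ℝ → M → M := fun t x => e.symm (σ t (e x)) with hρdef
  have her := mem_maximalAtlas_real he
  have hρ : IsSemi E ρ := by
    refine ⟨fun x => ?_, fun s t hs0 ht0 x => ?_, fun t ht x => ?_, fun t ht x => ?_⟩
    · simp only [hρdef, ofReal_zero, hσ.zero]
      exact e.left_inv (hsrc x)
    · simp only [hρdef]
      rw [e.right_inv (hinv t ht0 _ (e.map_source (hsrc x))), ← hσ.add]
      congr 2
      push_cast
      ring
    · have h1 : ContMDiff 𝓘(ℝ, E) 𝓘(ℝ, E) ∞ e := by
        have h2 := contMDiffOn_of_mem_maximalAtlas her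
        rwa [hs, contMDiffOn_univ] at h2
      have h2 := contMDiffOn_symm_of_mem_maximalAtlas her
      have h3 : ContDiff ℝ ∞ (fun q : ℝ × E => σ q.1 q.2) := by
        have h4 : ContDiff ℝ ∞ (fun q : ℂ × E => σ q.1 q.2) := by
          have h5 := contDiffOn_of_differentiableOn_complex isOpen_univ
            (hσd.differentiableOn (s := univ))
          exact (contDiffOn_univ.1 h5).restrict_scalars ℝ
        have h6 : ContDiff ℝ ∞ (fun q : ℝ × E => ((q.1 : ℂ), q.2)) :=
          (ofRealCLM.contDiff.comp contDiff_fst).prodMk contDiff_snd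
        exact h4.comp h6
      have h7 : ContMDiff (𝓘(ℝ, ℝ).prod 𝓘(ℝ, E)) 𝓘(ℝ, ℝ × E) ∞
          (fun q : ℝ × M => (q.1, e q.2)) :=
        contMDiff_fst.prodMk_space (h1.comp contMDiff_snd)
      have h8 : ContMDiff (𝓘(ℝ, ℝ).prod 𝓘(ℝ, E)) 𝓘(ℝ, E) ∞
          (fun q : ℝ × M => σ q.1 (e q.2)) :=
        ContMDiff.comp (g := fun q : ℝ × E => σ q.1 q.2) h3.contMDiff h7
      have h9 : ContMDiffAt 𝓘(ℝ, E) 𝓘(ℝ, E) ∞ e.symm (σ t (e x)) :=
        h2.contMDiffAt (e.open_target.mem_nhds (hinv t ht _ (e.map_source (hsrc x))))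
      exact ContMDiffAt.comp (t, x) (g := e.symm) (f := fun q : ℝ × M => σ q.1 (e q.2)) h9
        h8.contMDiffAt
    · have h1 : MDifferentiableAt 𝓘(ℂ, E) 𝓘(ℂ, E) e x := (heh.mdifferentiable (by simp)) x
      have h2 : MDifferentiableAt 𝓘(ℂ, E) 𝓘(ℂ, E) (fun z => σ t z) (e x) := by
        have h3 : DifferentiableAt ℂ (fun z : E => σ t z) (e x) :=
          DifferentiableAt.comp (e x) (g := fun q : ℂ × E => σ q.1 q.2)
            (f := fun z : E => ((t : ℂ), z)) (hσd _)
            ((differentiableAt_const _).prodMk differentiableAt_id)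
        exact h3.mdifferentiableAt
      have h3 : MDifferentiableAt 𝓘(ℂ, E) 𝓘(ℂ, E) e.symm (σ t (e x)) :=
        (hesym.contMDiffAt (e.open_target.mem_nhds
          (hinv t ht _ (e.map_source (hsrc x))))).mdifferentiableAt (by simp)
      exact h3.comp x (h2.comp x h1)
  obtain ⟨ψ, hψ, hψe⟩ := hExt ρ hρ.isHolSemigroup
  have h1 : Differentiable ℂ (fun ζ => e (ψ ζ (e.symm z))) := by
    intro ζ
    have h2 : ContMDiff 𝓘(ℂ, ℂ) 𝓘(ℂ, E) 1 (fun ζ => ψ ζ (e.symm z)) :=
      hψ.holo.comp (contMDiff_id.prodMk contMDiff_const)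
    have h3 := (heh.comp h2).mdifferentiable (by simp) ζ
    exact h3.differentiableAt
  have h2 : Differentiable ℂ (fun ζ => σ ζ z) := by
    intro ζ
    exact DifferentiableAt.comp ζ (g := fun q : ℂ × E => σ q.1 q.2)
      (f := fun ζ : ℂ => (ζ, z)) (hσd _) (differentiableAt_id.prodMk (differentiableAt_const _))
  have h3 := eq_of_pos h1 h2 (fun t ht => by
    simp only [hψe t ht, hρdef]
    rw [e.right_inv hz, e.right_inv (hinv t ht z hz)]) ζ
  rw [← h3]
  exact e.map_source (hsrc _)

/-- translations in one direction -/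
theorem translate (hExt : HasSExt E M) {e : OpenPartialHomeomorph M E}
    (he : e ∈ maximalAtlas 𝓘(ℂ, E) 1 M) (hs : e.source = univ) {v : E}
    (hinv : ∀ t : ℝ, 0 ≤ t → ∀ z ∈ e.target, z + (t : ℂ) • v ∈ e.target) (ζ : ℂ) {z : E}
    (hz : z ∈ e.target) : z + ζ • v ∈ e.target := by
  set σ : ℂ → E → E := fun ζ z => z + ζ • v with hσ
  have h1 : IsHolCFlow E σ := by
    apply isHolCFlow_of_diff
    · intro x; simp [hσ]
    · intro s t x
      simp only [hσ, add_smul]
      abel
    · simp only [hσ]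
      fun_prop
  exact inv_complex hExt he hs h1 hinv ζ hz

/-- domains which are mapped into themselves by the translations in directions which span -/
theorem halfTube (hExt : HasSExt E M) [Nonempty M] {e : OpenPartialHomeomorph M E}
    (he : e ∈ maximalAtlas 𝓘(ℂ, E) 1 M) (hs : e.source = univ) {V : Set E}
    (hV : Submodule.span ℂ V = ⊤) (hinv : ∀ v ∈ V, ∀ t : ℝ, 0 ≤ t → ∀ z ∈ e.target,
      z + (t : ℂ) • v ∈ e.target) : e.target = univ := by
  have hall : ∀ w : E, ∀ ζ : ℂ, ∀ z ∈ e.target, z + ζ • w ∈ e.target := by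
    intro w
    have hw : w ∈ Submodule.span ℂ V := hV ▸ Submodule.mem_top
    induction hw using Submodule.span_induction with
    | mem v hv => exact fun ζ z hz => translate hExt he hs (hinv v hv) ζ hz
    | zero => intro ζ z hz; rwa [smul_zero, add_zero]
    | add x y _ _ hx hy =>
      intro ζ z hz
      rw [smul_add, ← add_assoc]
      exact hy ζ _ (hx ζ z hz)
    | smul a x _ ih =>
      intro ζ z hz
      rw [smul_smul]
      exact ih _ z hz
  obtain ⟨x⟩ := (inferInstance : Nonempty M)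
  have hx : e x ∈ e.target := e.map_source (hs ▸ mem_univ x)
  refine eq_univ_of_forall fun w => ?_
  have := hall (w - e x) 1 _ hx
  rwa [one_smul, add_sub_cancel] at this

variable {ι : Type*} [Fintype ι]

/-- the linear flow with the opposite sign -/
theorem isHolCFlow_LE_neg (φ : E ≃L[ℂ] (ι → ℂ)) (m : ι → ℝ) :
    IsHolCFlow E (fun ζ => LE φ m (-ζ)) := by
  apply isHolCFlow_of_diff
  · intro x
    rw [neg_zero]
    exact LE_zero x
  · intro s t x
    rw [neg_add]
    exact LE_add (-s) (-t) x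
  · unfold Mfd.LE
    apply φ.symm.differentiable.comp
    rw [differentiable_pi]
    intro j
    have h1 : Differentiable ℂ (fun q : ℂ × E => φ q.2 j) := by
      have h2 := differentiable_pi.1 (φ.differentiable.comp
        (differentiable_snd (𝕜 := ℂ) (E := ℂ) (F := E))) j
      exact h2
    exact ((differentiable_fst.neg.mul (differentiable_const _)).cexp).mul h1

/-- (quasi-)starlike domains -/
theorem starlike (hExt : HasSExt E M) {e : OpenPartialHomeomorph M E}
    (he : e ∈ maximalAtlas 𝓘(ℂ, E) 1 M) (hs : e.source = univ) (h0 : (0 : E) ∈ e.target)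
    (φ : E ≃L[ℂ] (ι → ℂ)) {m : ι → ℝ} (hm : ∀ j, 0 < m j)
    (hinv : ∀ t : ℝ, 0 ≤ t → ∀ z ∈ e.target, LE φ m (-(t : ℂ)) z ∈ e.target) :
    e.target = univ := by
  refine eq_univ_of_forall fun w => ?_
  have h1 : Tendsto (fun t : ℝ => LE φ m (t : ℂ) w) atBot (𝓝 0) := by
    have h2 : Tendsto (fun t : ℝ => (fun j => Complex.exp (t * m j) * φ w j : ι → ℂ)) atBot
        (𝓝 0) := by
      rw [tendsto_pi_nhds]
      intro j
      have h3 : Tendsto (fun t : ℝ => Complex.exp (t * m j)) atBot (𝓝 0) := by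
        rw [tendsto_zero_iff_norm_tendsto_zero]
        simp only [norm_exp_mul]
        exact Real.tendsto_exp_atBot.comp (tendsto_id.atBot_mul_const (hm j))
      simpa using h3.mul_const (φ w j)
    have h3 := (φ.symm.continuous.tendsto 0).comp h2
    rw [map_zero] at h3
    exact h3
  have h2 : ∀ᶠ t : ℝ in atBot, LE φ m (t : ℂ) w ∈ e.target :=
    h1.eventually (e.open_target.mem_nhds h0)
  obtain ⟨t, ht⟩ := h2.exists
  have h3 := inv_complex hExt he hs (isHolCFlow_LE_neg φ m) hinv ((t : ℂ)) ht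
  rw [← LE_add, neg_add_cancel, LE_zero] at h3
  exact h3

/-- quasi-starlike domains, in terms of a basis -/
theorem starlike' (hExt : HasSExt E M) {e : OpenPartialHomeomorph M E}
    (he : e ∈ maximalAtlas 𝓘(ℂ, E) 1 M) (hs : e.source = univ) (h0 : (0 : E) ∈ e.target)
    (b : Module.Basis ι ℂ E) {m : ι → ℝ} (hm : ∀ j, 0 < m j)
    (hinv : ∀ t : ℝ, 0 ≤ t → ∀ z ∈ e.target,
      ∑ j, (exp (-(t * m j)) * b.repr z j) • b j ∈ e.target) :
    e.target = univ := by
  refine starlike hExt he hs h0 (b.equivFun.toContinuousLinearEquiv) hm fun t ht z hz => ?_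
  have h1 := hinv t ht z hz
  have h2 : Mfd.LE (b.equivFun.toContinuousLinearEquiv) m (-(t : ℂ)) z =
      ∑ j, (exp (-(t * m j)) * b.repr z j) • b j := by
    unfold Mfd.LE
    have h3 : ∀ c : ι → ℂ, (b.equivFun.toContinuousLinearEquiv).symm c = ∑ j, c j • b j := by
      intro c
      exact b.equivFun_symm_apply c
    rw [h3]
    refine Finset.sum_congr rfl fun j _ => ?_
    have h4 : -(t : ℂ) * (m j : ℂ) = -(t * m j) := by ring
    rw [h4]
    rfl
  rw [h2]
  exact h1

/-- starlike domains -/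
theorem star (hExt : HasSExt E M) {e : OpenPartialHomeomorph M E}
    (he : e ∈ maximalAtlas 𝓘(ℂ, E) 1 M) (hs : e.source = univ) (h0 : (0 : E) ∈ e.target)
    (hinv : StarConvex ℝ 0 e.target) : e.target = univ := by
  set b := Module.finBasis ℂ E
  refine starlike' hExt he hs h0 b (m := fun _ => 1) (fun _ => one_pos) fun t ht z hz => ?_
  have h1 : ∑ j, (exp (-(t * ((1 : ℝ) : ℂ))) * b.repr z j) • b j = Real.exp (-t) • z := by
    simp only [mul_smul, ← Finset.smul_sum, b.sum_repr]
    rw [← Complex.coe_smul, ofReal_exp]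
    congr 2
    push_cast
    ring
  rw [h1]
  have h2 := hinv hz (a := 1 - Real.exp (-t)) (b := Real.exp (-t))
    (by simpa using ht) (Real.exp_pos _).le (by ring)
  simpa using h2

end Vale.Agent.P253.S445
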