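import Vale.Agent.P253.H567.Main
import Vale.Agent.P253.S445.Conv

/-!
P253: the consequences of the extension theorem for one-parameter semigroups of holomorphic
self-maps on complete Kähler manifolds with nonnegative bisectional curvature.
-/

open scoped Manifold ContDiff Topology Bundle
open Set Metric Complex Filter Bundle IsManifold Manifold Vale.Agent.P253.Mfd
  Vale.Agent.P253.CStar

set_option linter.unusedSectionVars false

noncomputable section

namespace Vale.Agent.P253.S445

open Vale.Agent.P253.R2 Vale.Agent.P253.R2.H445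

variable {E : Type*} [NormedAddCommGroup E] [NormedSpace ℂ E] [FiniteDimensional ℂ E]
  {M : Type*} [MetricSpace M] [ChartedSpace E M] [IsManifold 𝓘(ℂ, E) 1 M]
  [IsManifold 𝓘(ℝ, E) ∞ M]
  [RiemannianBundle (fun x : M => TangentSpace 𝓘(ℝ, E) x)]
  [IsContMDiffRiemannianBundle 𝓘(ℝ, E) ∞ E (fun x : M => TangentSpace 𝓘(ℝ, E) x)]
  [IsRiemannianManifold 𝓘(ℝ, E) M]

/-- the extension theorem -/
theorem hasSExt (hK : IsKahler E M) [CompleteSpace M] [ConnectedSpace M]
    (hnn : ∀ x : M, NonnegBisectionalAt E x) : HasSExt E M :=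
  H567.hasSExt_of_nonneg hK hnn

end Vale.Agent.P253.S445
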