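import Vale.Agent.P253.S445.Unip
import Vale.Agent.P253.S445.Dom
import Vale.Agent.P253.R2.H445.Uniq
import Vale.Agent.P253.H577.Rig

/-!
P253: a holomorphic action of `ℂ` with an attracting fixed point whose weights are pinched positive
integers is periodic, hence (for the metrics considered) linearizable.
-/

open scoped Manifold ContDiff Topology Bundle
open Set Metric Complex Filter Bundle IsManifold Manifold Vale.Agent.P253.Mfd
  Vale.Agent.P253.CStar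

set_option maxSynthPendingDepth 3
set_option linter.unusedSectionVars false

noncomputable section

namespace Vale.Agent.P253.S445

open Vale.Agent.P253.R2 Vale.Agent.P253.R2.H445

variable {E : Type*} [NormedAddCommGroup E] [NormedSpace ℂ E] [FiniteDimensional ℂ E]
  {M : Type*} [MetricSpace M] [ChartedSpace E M] [IsManifold 𝓘(ℂ, E) 1 M]
  {ι : Type*} [Fintype ι] {ψ : ℂ → M → M} {p : M} {e e' : OpenPartialHomeomorph M E}

theorem cflow_cont (h : IsHolCFlow E ψ) : Continuous (fun q : ℂ × M => ψ q.1 q.2) :=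
  h.holo.continuous

theorem cflow_mdiff (h : IsHolCFlow E ψ) (ζ : ℂ) : MDifferentiable 𝓘(ℂ, E) 𝓘(ℂ, E) (ψ ζ) := by
  have h1 : ContMDiff 𝓘(ℂ, E) 𝓘(ℂ, E) 1 (ψ ζ) := h.holo.comp (contMDiff_const.prodMk contMDiff_id)
  exact h1.mdifferentiable (by simp)

theorem isOpen_HCΩ' (h : IsHolCFlow E ψ) : IsOpen (HCΩ ψ e e') := by
  have hc : ContinuousOn (fun q : ℂ × E => ψ q.1 (e.symm q.2)) {q | q.2 ∈ e.target} := by
    have h1 : ContinuousOn (fun q : ℂ × E => (q.1, e.symm q.2)) {q | q.2 ∈ e.target} :=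
      continuousOn_fst.prodMk (e.continuousOn_symm.comp continuousOn_snd (fun q hq => hq))
    exact (cflow_cont h).comp_continuousOn h1
  have ho : IsOpen {q : ℂ × E | q.2 ∈ e.target} := e.open_target.preimage continuous_snd
  exact hc.isOpen_inter_preimage ho e'.open_source

theorem contDiffOn_HC' (h : IsHolCFlow E ψ) (he : e ∈ maximalAtlas 𝓘(ℂ, E) 1 M)
    (he' : e' ∈ maximalAtlas 𝓘(ℂ, E) 1 M) : ContDiffOn ℂ 1 (HC ψ e e') (HCΩ ψ e e') := by
  have h1 : ContMDiffOn (𝓘(ℂ, ℂ).prod 𝓘(ℂ, E)) (𝓘(ℂ, ℂ).prod 𝓘(ℂ, E)) 1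
      (fun q : ℂ × E => (q.1, e.symm q.2)) (HCΩ ψ e e') := by
    refine ContMDiffOn.prodMk contMDiffOn_fst ?_
    exact (contMDiffOn_symm_of_mem_maximalAtlas he).comp contMDiffOn_snd (fun q hq => hq.1)
  have h2 := h.holo.comp_contMDiffOn h1
  have h3 := (contMDiffOn_of_mem_maximalAtlas he').comp h2 (fun q hq => hq.2)
  have h4 : ContMDiffOn 𝓘(ℂ, ℂ × E) 𝓘(ℂ, E) 1 (HC ψ e e') (HCΩ ψ e e') := by
    rw [← modelWithCornersSelf_prod, chartedSpaceSelf_prod] at h3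
    exact h3
  exact contMDiffOn_iff_contDiffOn.1 h4

/-- the flow in a chart is smooth over `ℂ` -/
theorem contDiffOn_HC_top (h : IsHolCFlow E ψ) (he : e ∈ maximalAtlas 𝓘(ℂ, E) 1 M)
    (he' : e' ∈ maximalAtlas 𝓘(ℂ, E) 1 M) : ContDiffOn ℂ ∞ (HC ψ e e') (HCΩ ψ e e') := by
  have hCE : CompleteSpace E := FiniteDimensional.complete ℂ E
  exact contDiffOn_of_differentiableOn_complex (isOpen_HCΩ' h)
    ((contDiffOn_HC' h he he').differentiableOn (by simp))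

theorem hasFDerivAt_HC_right' (h : IsHolCFlow E ψ)
    (he : e ∈ maximalAtlas 𝓘(ℂ, E) 1 M) (he' : e' ∈ maximalAtlas 𝓘(ℂ, E) 1 M) {t : ℂ} {z : E}
    (hq : (t, z) ∈ HCΩ ψ e e') :
    HasFDerivAt (fun w => HC ψ e e' (t, w))
      ((fderiv ℂ (HC ψ e e') (t, z)).comp (ContinuousLinearMap.inr ℂ ℂ E)) z := by
  have h1 : HasFDerivAt (HC ψ e e') (fderiv ℂ (HC ψ e e') (t, z)) (t, z) :=
    (((contDiffOn_HC' h he he').contDiffAt ((isOpen_HCΩ' h).mem_nhds hq)).differentiableAt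
      (by simp)).hasFDerivAt
  have h2 : HasFDerivAt (fun w : E => (t, w)) (ContinuousLinearMap.inr ℂ ℂ E) z :=
    hasFDerivAt_prodMk_right t z
  exact h1.comp z h2

/-- a fixed point of the positive times is a fixed point of all complex times -/
theorem fixed_pos (h : IsHolCFlow E ψ) (hp : ∀ t : ℝ, 0 ≤ t → ψ t p = p) (ζ : ℂ) : ψ ζ p = p := by
  have hCE : CompleteSpace E := FiniteDimensional.complete ℂ E
  set e := chartAt E p with he
  have hem : e ∈ maximalAtlas 𝓘(ℂ, E) 1 M := chart_mem_maximalAtlas p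
  have hps : p ∈ e.source := mem_chart_source E p
  have hc : Continuous fun ζ => ψ ζ p := by
    have h2 : Continuous (fun ζ : ℂ => (ζ, p)) := by fun_prop
    exact (cflow_cont h).comp h2
  have h1 : ∀ᶠ ζ : ℂ in 𝓝 0, ψ ζ p ∈ e.source := by
    apply hc.continuousAt.eventually
    apply e.open_source.mem_nhds
    simpa only [h.zero] using hps
  obtain ⟨ε, hε, hball⟩ := Metric.eventually_nhds_iff_ball.1 h1
  have hd : DifferentiableOn ℂ (fun ζ => e (ψ ζ p)) (ball 0 ε) := by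
    intro ζ hζ
    have h2 : MDifferentiableAt 𝓘(ℂ, E) 𝓘(ℂ, E) e (ψ ζ p) :=
      ((contMDiffOn_of_mem_maximalAtlas hem).contMDiffAt
        (e.open_source.mem_nhds (hball ζ hζ))).mdifferentiableAt (by simp)
    have h3 := h2.comp ζ (orbit_mdiff h p ζ)
    exact h3.differentiableAt.differentiableWithinAt
  have heq := eqOn_of_pos hε hd (differentiableOn_const (e p)) (fun t ht _ => by rw [hp t ht.le])
  refine all_of_ball (P := fun ζ => ψ ζ p = p) (fun s t hs ht => ?_) hε (fun ζ hζ => ?_) ζ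
  · rw [h.add, ht, hs]
  · exact e.injOn (hball ζ hζ) hps (heq hζ)

/-- the derivative at the fixed point in the chart -/
theorem mfderiv_fixed (h : IsHolCFlow E ψ) (hp : ∀ ζ, ψ ζ p = p) (ζ : ℂ) :
    HasFDerivAt (fun w => HC ψ (chartAt E p) (chartAt E p) (ζ, w))
      (mfderiv 𝓘(ℂ, E) 𝓘(ℂ, E) (ψ ζ) p : E →L[ℂ] E) (chartAt E p p) := by
  have hCE : CompleteSpace E := FiniteDimensional.complete ℂ E
  set e := chartAt E p with he
  have hem : e ∈ maximalAtlas 𝓘(ℂ, E) 1 M := chart_mem_maximalAtlas p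
  have hps : p ∈ e.source := mem_chart_source E p
  have hmem : (ζ, e p) ∈ HCΩ ψ e e := ⟨e.map_source hps, by
    simp only
    rw [e.left_inv hps, hp]
    exact hps⟩
  have hmd : MDifferentiableAt 𝓘(ℂ, E) 𝓘(ℂ, E) (ψ ζ) p := cflow_mdiff h ζ p
  have h0 : (mfderiv 𝓘(ℂ, E) 𝓘(ℂ, E) (ψ ζ) p : E →L[ℂ] E) =
      fderivWithin ℂ (writtenInExtChartAt 𝓘(ℂ, E) 𝓘(ℂ, E) p (ψ ζ)) (range 𝓘(ℂ, E))
        (extChartAt 𝓘(ℂ, E) p p) := hmd.mfderiv
  have h1 : (mfderiv 𝓘(ℂ, E) 𝓘(ℂ, E) (ψ ζ) p : E →L[ℂ] E) =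
      fderiv ℂ (fun w => HC ψ e e (ζ, w)) (e p) := by
    rw [h0]
    simp only [writtenInExtChartAt, hp ζ, extChartAt, mfld_simps, fderivWithin_univ]
    rfl
  have h2 : DifferentiableAt ℂ (HC ψ e e) (ζ, e p) :=
    ((contDiffOn_HC' h hem hem).contDiffAt ((isOpen_HCΩ' h).mem_nhds hmem)).differentiableAt
      (by simp)
  have h3 : DifferentiableAt ℂ (fun w : E => HC ψ e e (ζ, w)) (e p) :=
    DifferentiableAt.comp (e p) (g := HC ψ e e) (f := fun w : E => (ζ, w)) h2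
      ((differentiableAt_const _).prodMk differentiableAt_id)
  rw [h1]
  exact h3.hasFDerivAt

/-- the derivative of the action of `ℂ` at a fixed point is determined by the positive times -/
theorem weights_pos (h : IsHolCFlow E ψ) (hp : ∀ ζ, ψ ζ p = p) {φ : E ≃L[ℂ] (ι → ℂ)} {m : ι → ℝ}
    (hw : ∀ t : ℝ, 0 ≤ t → ∀ v : E, (mfderiv 𝓘(ℂ, E) 𝓘(ℂ, E) (ψ t) p : E → E) v =
      LE φ m (-t) v) (ζ : ℂ) (v : E) :
    (mfderiv 𝓘(ℂ, E) 𝓘(ℂ, E) (ψ ζ) p : E → E) v = LE φ m (-ζ) v := by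
  have hCE : CompleteSpace E := FiniteDimensional.complete ℂ E
  set e := chartAt E p with he
  have hem : e ∈ maximalAtlas 𝓘(ℂ, E) 1 M := chart_mem_maximalAtlas p
  have hps : p ∈ e.source := mem_chart_source E p
  set z₀ := e p with hz₀
  have hΩ : IsOpen (HCΩ ψ e e) := isOpen_HCΩ' h
  have hmem : ∀ ζ : ℂ, (ζ, z₀) ∈ HCΩ ψ e e := fun ζ =>
    ⟨e.map_source hps, by
      simp only [hz₀]
      rw [e.left_inv hps, hp]
      exact hps⟩
  have hsm : ContDiffOn ℂ ∞ (HC ψ e e) (HCΩ ψ e e) := contDiffOn_HC_top h hem hem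
  have hder : ∀ (ζ : ℂ) (v : E), (mfderiv 𝓘(ℂ, E) 𝓘(ℂ, E) (ψ ζ) p : E → E) v =
      fderiv ℂ (HC ψ e e) (ζ, z₀) (0, v) := by
    intro ζ v
    have h2 : DifferentiableAt ℂ (HC ψ e e) (ζ, z₀) :=
      (hsm.contDiffAt (hΩ.mem_nhds (hmem ζ))).differentiableAt (by simp)
    have h3 : HasFDerivAt (fun w : E => HC ψ e e (ζ, w))
        ((fderiv ℂ (HC ψ e e) (ζ, z₀)).comp (ContinuousLinearMap.inr ℂ ℂ E)) z₀ := by
      exact hasFDerivAt_HC_right' h hem hem (hmem ζ)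
    let T : E →L[ℂ] E := mfderiv 𝓘(ℂ, E) 𝓘(ℂ, E) (ψ ζ) p
    have h5 : HasFDerivAt (fun w : E => HC ψ e e (ζ, w)) T z₀ := mfderiv_fixed h hp ζ
    have h4 : T = (fderiv ℂ (HC ψ e e) (ζ, z₀)).comp (ContinuousLinearMap.inr ℂ ℂ E) :=
      HasFDerivAt.unique h5 h3
    exact congrArg (fun S : E →L[ℂ] E => S v) h4
  have hhol : ∀ v : E, Differentiable ℂ (fun ζ : ℂ => fderiv ℂ (HC ψ e e) (ζ, z₀) (0, v)) := by
    intro v ζ
    have h1 : ContDiffOn ℂ ∞ (fderiv ℂ (HC ψ e e)) (HCΩ ψ e e) :=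
      hsm.fderiv_of_isOpen hΩ (by simp)
    have h2 : DifferentiableAt ℂ (fderiv ℂ (HC ψ e e)) (ζ, z₀) :=
      (h1.contDiffAt (hΩ.mem_nhds (hmem ζ))).differentiableAt (by simp)
    have h3 : DifferentiableAt ℂ (fun ζ : ℂ => (ζ, z₀)) ζ := by fun_prop
    have h4 := h2.comp ζ h3
    exact h4.clm_apply (differentiableAt_const _)
  rw [hder]
  refine eq_of_pos (hhol v) ((differentiable_LE (φ := φ) (m := m) v).comp differentiable_neg)
    (fun t ht => ?_) ζ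
  rw [← hder, hw t ht]
  rfl

/-- If the weights are positive integers with `m i < 2 m j` for all `i`, `j`, the action is
periodic. -/
theorem periodic [ConnectedSpace M] [Nonempty ι] (h : IsHolCFlow E ψ) (hp : ∀ ζ, ψ ζ p = p)
    {φ : E ≃L[ℂ] (ι → ℂ)} {m : ι → ℝ} (hm : ∀ j, 0 < m j) (hint : ∀ j, ∃ k : ℤ, m j = k)
    (hpinch : ∀ i j, m i < 2 * m j)
    (hw : ∀ (ζ : ℂ) (v : E), (mfderiv 𝓘(ℂ, E) 𝓘(ℂ, E) (ψ ζ) p : E → E) v = LE φ m (-ζ) v)
    (x : M) : ψ (2 * Real.pi * I) x = x := by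
  have hCE : CompleteSpace E := FiniteDimensional.complete ℂ E
  refine H577.eq_id_of_eventually (cflow_mdiff h _) (p := p) ?_ x
  set e := chartAt E p with he
  have hem : e ∈ maximalAtlas 𝓘(ℂ, E) 1 M := chart_mem_maximalAtlas p
  have hps : p ∈ e.source := mem_chart_source E p
  set z₀ := e p with hz₀
  have hΩ : IsOpen (HCΩ ψ e e) := isOpen_HCΩ' h
  have hmem : ∀ ζ : ℂ, (ζ, z₀) ∈ HCΩ ψ e e := fun ζ =>
    ⟨e.map_source hps, by
      simp only [hz₀]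
      rw [e.left_inv hps, hp]
      exact hps⟩
  have hsm : ContDiffOn ℂ ∞ (HC ψ e e) (HCΩ ψ e e) := contDiffOn_HC_top h hem hem
  have hval : ∀ ζ : ℂ, HC ψ e e (ζ, z₀) = z₀ := by
    intro ζ
    simp only [HC, hz₀]
    rw [e.left_inv hps, hp]
  -- the maps in the coordinates `φ (e x - z₀)`
  set A : ℂ → (ι → ℂ) → (ι → ℂ) := fun ζ u => φ (HC ψ e e (ζ, φ.symm u + z₀) - z₀) with hA
  have hA0 : ∀ ζ, A ζ 0 = 0 := by
    intro ζ
    simp only [hA, map_zero, zero_add, hval, sub_self]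
  have hin : ∀ u : ι → ℂ, DifferentiableAt ℂ (fun u : ι → ℂ => φ.symm u + z₀) u := fun u =>
    (φ.symm.differentiable u).add_const z₀
  have hAs : ∀ ζ, ContDiffAt ℂ ∞ (A ζ) 0 := by
    intro ζ
    have h1 : ContDiffAt ℂ ∞ (HC ψ e e) (ζ, φ.symm (0 : ι → ℂ) + z₀) := by
      rw [map_zero, zero_add]
      exact hsm.contDiffAt (hΩ.mem_nhds (hmem ζ))
    have h2 : ContDiffAt ℂ ∞ (fun u : ι → ℂ => (ζ, φ.symm u + z₀)) 0 :=
      contDiffAt_const.prodMk (φ.symm.contDiff.contDiffAt.add contDiffAt_const)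
    have h3 : ContDiffAt ℂ ∞ (fun u : ι → ℂ => HC ψ e e (ζ, φ.symm u + z₀)) 0 :=
      ContDiffAt.comp (0 : ι → ℂ) (g := HC ψ e e) h1 h2
    exact φ.contDiff.contDiffAt.comp (0 : ι → ℂ) (h3.sub contDiffAt_const)
  have hAd : ∀ ζ, HasFDerivAt (A ζ) ((φ : E →L[ℂ] (ι → ℂ)).comp
      ((mfderiv 𝓘(ℂ, E) 𝓘(ℂ, E) (ψ ζ) p : E →L[ℂ] E).comp
        (φ.symm : (ι → ℂ) →L[ℂ] E))) 0 := by
    intro ζ
    have h1 : HasFDerivAt (fun w => HC ψ e e (ζ, w))
        (mfderiv 𝓘(ℂ, E) 𝓘(ℂ, E) (ψ ζ) p : E →L[ℂ] E) (φ.symm (0 : ι → ℂ) + z₀) := by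
      rw [map_zero, zero_add]
      exact mfderiv_fixed h hp ζ
    have h2 : HasFDerivAt (fun u : ι → ℂ => φ.symm u + z₀) (φ.symm : (ι → ℂ) →L[ℂ] E) 0 :=
      (φ.symm.hasFDerivAt (x := 0)).add_const z₀
    have h3 := (h1.comp (0 : ι → ℂ) h2).sub_const z₀
    exact (φ.hasFDerivAt).comp (0 : ι → ℂ) h3
  have hDv : ∀ ζ (v : ι → ℂ) j, ((φ : E →L[ℂ] (ι → ℂ)).comp
      ((mfderiv 𝓘(ℂ, E) 𝓘(ℂ, E) (ψ ζ) p : E →L[ℂ] E).comp
        (φ.symm : (ι → ℂ) →L[ℂ] E))) v j = exp (-ζ * m j) * v j := by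
    intro ζ v j
    have h1 : (mfderiv 𝓘(ℂ, E) 𝓘(ℂ, E) (ψ ζ) p : E →L[ℂ] E) (φ.symm v) =
        LE φ m (-ζ) (φ.symm v) := hw ζ (φ.symm v)
    change φ ((mfderiv 𝓘(ℂ, E) 𝓘(ℂ, E) (ψ ζ) p : E →L[ℂ] E) (φ.symm v)) j = _
    rw [h1, LE_coord]
    simp
  -- composition
  have hcomp : ∀ s t : ℂ, ∀ᶠ u in 𝓝 (0 : ι → ℂ), A s (A t u) = A (s + t) u := by
    intro s t
    have h1 : Tendsto (fun u : ι → ℂ => (t, φ.symm u + z₀)) (𝓝 0) (𝓝 (t, z₀)) := by
      have : Continuous (fun u : ι → ℂ => (t, φ.symm u + z₀)) := by fun_prop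
      have h2 := this.tendsto 0
      simpa using h2
    filter_upwards [h1.eventually (hΩ.mem_nhds (hmem t))] with u hu
    have h2 : ψ t (e.symm (φ.symm u + z₀)) ∈ e.source := hu.2
    simp only [hA, HC, ContinuousLinearEquiv.symm_apply_apply, sub_add_cancel]
    rw [e.left_inv h2, ← h.add]
  -- bounds of the weights
  obtain ⟨i₀, hi₀⟩ := Finite.exists_min m
  obtain ⟨i₁, hi₁⟩ := Finite.exists_max m
  have hkey := unip (G := A (2 * Real.pi * I)) (R := A 1) (a := Real.exp (-(m i₁)))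
    (b := Real.exp (-(m i₀))) (Real.exp_pos _) (Real.exp_pos _).le
    (by rw [Real.exp_lt_one_iff]; linarith [hm i₀])
    (by rw [← Real.exp_nat_mul, Real.exp_lt_exp]; push_cast; linarith [hpinch i₁ i₀])
    (D := ((φ : E →L[ℂ] (ι → ℂ)).comp
      ((mfderiv 𝓘(ℂ, E) 𝓘(ℂ, E) (ψ 1) p : E →L[ℂ] E).comp
        (φ.symm : (ι → ℂ) →L[ℂ] E))))
    (fun v => by
      rw [← le_div_iff₀' (Real.exp_pos _)]
      rw [pi_norm_le_iff_of_nonneg (by positivity)]
      intro j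
      rw [le_div_iff₀' (Real.exp_pos _)]
      refine le_trans ?_ (norm_le_pi_norm _ j)
      rw [hDv, norm_mul, norm_exp]
      have h1 : (-1 * (m j : ℂ)).re = -(m j) := by simp
      rw [h1]
      exact mul_le_mul_of_nonneg_right (Real.exp_le_exp.2 (by linarith [hi₁ j])) (norm_nonneg _))
    (fun v => by
      rw [pi_norm_le_iff_of_nonneg (by positivity)]
      intro j
      rw [hDv, norm_mul, norm_exp]
      have h1 : (-1 * (m j : ℂ)).re = -(m j) := by simp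
      rw [h1]
      exact mul_le_mul (Real.exp_le_exp.2 (by linarith [hi₀ j])) (norm_le_pi_norm _ j)
        (norm_nonneg _) (Real.exp_pos _).le)
    ((hAs _).of_le (WithTop.coe_le_coe.2 le_top)) (hA0 _) (by
      have h1 := hAd (2 * Real.pi * I)
      have h2 : ((φ : E →L[ℂ] (ι → ℂ)).comp
          ((mfderiv 𝓘(ℂ, E) 𝓘(ℂ, E) (ψ (2 * Real.pi * I)) p : E →L[ℂ] E).comp
            (φ.symm : (ι → ℂ) →L[ℂ] E))) = ContinuousLinearMap.id ℂ (ι → ℂ) := by
        ext v j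
        rw [hDv]
        obtain ⟨k, hk⟩ := hint j
        have h3 : exp (-(2 * Real.pi * I) * (m j : ℂ)) = 1 := by
          rw [exp_eq_one_iff]
          refine ⟨-k, ?_⟩
          rw [hk]
          push_cast
          ring
        rw [h3]
        simp
      rw [h2] at h1
      exact h1) (hA0 _)
    (by
      have h1 := (hAs 1).hasStrictFDerivAt (by simp)
      rwa [(hAd 1).fderiv] at h1)
    (by
      filter_upwards [hcomp (2 * Real.pi * I) 1, hcomp 1 (2 * Real.pi * I)] with u h1 h2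
      rw [h1, h2, add_comm])
  have hcx : Tendsto (fun x => φ (e x - z₀)) (𝓝 p) (𝓝 0) := by
    have h1 : Tendsto (fun x => e x - z₀) (𝓝 p) (𝓝 0) := by
      have h2 := (e.continuousAt hps).tendsto.sub_const z₀
      rwa [← hz₀, sub_self] at h2
    have h2 := (φ.continuous.tendsto 0).comp h1
    rwa [map_zero] at h2
  have hsrc : ∀ᶠ x in 𝓝 p, x ∈ e.source ∧ ψ (2 * Real.pi * I) x ∈ e.source := by
    have h1 : ∀ᶠ x in 𝓝 p, x ∈ e.source := e.open_source.mem_nhds hps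
    have h2 : ∀ᶠ x in 𝓝 p, ψ (2 * Real.pi * I) x ∈ e.source := by
      apply ((cflow_mdiff h (2 * Real.pi * I)).continuous.continuousAt).eventually
      apply e.open_source.mem_nhds
      rw [hp]
      exact hps
    exact h1.and h2
  filter_upwards [hcx.eventually hkey, hsrc] with x h1 h2
  simp only [hA, HC, ContinuousLinearEquiv.symm_apply_apply, sub_add_cancel] at h1
  rw [e.left_inv h2.1] at h1
  have h3 := φ.injective h1
  have h4 := sub_left_injective h3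
  exact e.injOn h2.2 h2.1 h4

end Vale.Agent.P253.S445
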