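import Vale.Agent.P253.S445.Unip
import Mathlib.Analysis.Calculus.SmoothSeries

/-!
P253: Koenigs linearization of a holomorphic contraction with pinched spectrum (local part).
-/

open scoped ContDiff Topology
open Set Metric Filter

noncomputable section

namespace Vale.Agent.P253.S445

/-- Cauchy estimate for the Fréchet derivative -/
theorem cauchy_fderiv {E F : Type*} [NormedAddCommGroup E] [NormedSpace ℂ E]
    [NormedAddCommGroup F] [NormedSpace ℂ F] {f : E → F} {u : E} {r K : ℝ} (hr : 0 < r)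
    (hK0 : 0 ≤ K) (hd : ∀ w ∈ closedBall u r, DifferentiableAt ℂ f w)
    (hK : ∀ w ∈ closedBall u r, ‖f w‖ ≤ K) : ‖fderiv ℂ f u‖ ≤ K / r := by
  refine ContinuousLinearMap.opNorm_le_bound _ (by positivity) fun v => ?_
  rcases eq_or_ne v 0 with rfl | hv
  · simp
  have hv' : 0 < ‖v‖ := norm_pos_iff.2 hv
  set s := r / ‖v‖ with hs
  have hs0 : 0 < s := by positivity
  have hin : ∀ ζ ∈ closedBall (0:ℂ) s, u + ζ • v ∈ closedBall u r := by
    intro ζ hζ
    rw [mem_closedBall_zero_iff] at hζ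
    rw [mem_closedBall, dist_eq_norm, add_sub_cancel_left, norm_smul]
    calc ‖ζ‖ * ‖v‖ ≤ s * ‖v‖ := mul_le_mul_of_nonneg_right hζ hv'.le
      _ = r := by rw [hs]; field_simp
  have hline : ∀ ζ : ℂ, HasDerivAt (fun ζ : ℂ => u + ζ • v) v ζ := by
    intro ζ
    have h1 := ((hasDerivAt_id ζ).smul_const v).const_add u
    simpa using h1
  have hg : ∀ ζ ∈ closedBall (0:ℂ) s, HasDerivAt (fun ζ : ℂ => f (u + ζ • v))
      (fderiv ℂ f (u + ζ • v) v) ζ := by
    intro ζ hζ
    exact (hd _ (hin ζ hζ)).hasFDerivAt.comp_hasDerivAt ζ (hline ζ)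
  have h1 := Complex.norm_deriv_le_of_forall_mem_sphere_norm_le (f := fun ζ : ℂ => f (u + ζ • v))
    (c := 0) (R := s) (C := K) hs0
    (DifferentiableOn.diffContOnCl_ball (U := closedBall 0 s)
      (fun ζ hζ => (hg ζ hζ).differentiableAt.differentiableWithinAt) subset_rfl)
    (fun ζ hζ => hK _ (hin ζ (sphere_subset_closedBall hζ)))
  rw [(hg 0 (mem_closedBall_self hs0.le)).deriv, zero_smul, add_zero] at h1
  calc ‖fderiv ℂ f u v‖ ≤ K / s := h1
    _ = K / r * ‖v‖ := by rw [hs]; field_simp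

/-- Koenigs linearization, local form -/
theorem koenigs_local {F : Type*} [NormedAddCommGroup F] [NormedSpace ℂ F] [CompleteSpace F]
    {R : F → F} {D : F ≃L[ℂ] F} {a b : ℝ} (ha : 0 < a) (hb : b < 1) (hb0 : 0 ≤ b)
    (hab : b ^ 2 < a) (hDa : ∀ v, a * ‖v‖ ≤ ‖D v‖) (hDb : ∀ v, ‖D v‖ ≤ b * ‖v‖)
    (hR2 : ContDiffAt ℂ 2 R 0) (hR0 : R 0 = 0) (hR : HasFDerivAt R (D : F →L[ℂ] F) 0) :
    ∃ δ > 0, ∃ L : F → F, DifferentiableOn ℂ L (ball 0 δ) ∧ L 0 = 0 ∧
      HasFDerivAt L (ContinuousLinearMap.id ℂ F) 0 ∧ (∀ u ∈ ball (0:F) δ, ‖R u‖ ≤ ‖u‖) ∧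
      (∀ u ∈ ball (0:F) δ, L (R u) = D (L u)) := by
  -- room
  obtain ⟨c, hc0, hc1, hbc, hca⟩ : ∃ c : ℝ, 0 ≤ c ∧ c < 1 ∧ b < c ∧ c ^ 2 < a := by
    have h1 : ∀ᶠ c in 𝓝[>] b, c ^ 2 < a :=
      ((continuous_pow 2).tendsto b).mono_left nhdsWithin_le_nhds |>.eventually (gt_mem_nhds hab)
    have h3 : ∀ᶠ c : ℝ in 𝓝[>] b, c ∈ Ioo b 1 := Ioo_mem_nhdsGT hb
    obtain ⟨c, h4, h5⟩ := (h1.and h3).exists
    exact ⟨c, hb0.trans h5.1.le, h5.2, h5.1, h4⟩
  -- quadratic estimate
  obtain ⟨C, δ₁, hC, hδ₁, hquad⟩ := quad (h := fun u => R u - D u)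
    (hR2.sub D.contDiff.contDiffAt) (by simp [hR0]) (by
      have h2 : HasFDerivAt (fun u => R u - D u) ((D : F →L[ℂ] F) - (D : F →L[ℂ] F)) 0 :=
        hR.sub D.hasFDerivAt
      rw [h2.fderiv, sub_self])
  have hdiff : ∀ᶠ u in 𝓝 (0:F), DifferentiableAt ℂ R u := by
    filter_upwards [hR2.eventually (by simp)] with u hu
    exact hu.differentiableAt (by simp)
  obtain ⟨δ₂, hδ₂, hball₂⟩ := Metric.mem_nhds_iff.1 hdiff
  set δ : ℝ := min (min δ₁ δ₂) ((c - b) / (C + 1)) with hδdef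
  have hcb : 0 < c - b := by linarith
  have hδ : 0 < δ := lt_min (lt_min hδ₁ hδ₂) (by positivity)
  have hsub₁ : ball (0:F) δ ⊆ ball 0 δ₁ := ball_subset_ball ((min_le_left _ _).trans (min_le_left _ _))
  have hsub₂ : ball (0:F) δ ⊆ ball 0 δ₂ := ball_subset_ball ((min_le_left _ _).trans (min_le_right _ _))
  have hδC : C * δ ≤ c - b := by
    have h1 : δ ≤ (c - b) / (C + 1) := min_le_right _ _
    rw [le_div_iff₀ (by positivity)] at h1
    nlinarith
  have hRc : ∀ u ∈ ball (0:F) δ, ‖R u‖ ≤ c * ‖u‖ := by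
    intro u hu
    have h1 := hquad u (hsub₁ hu)
    have hu' : ‖u‖ < δ := by simpa using hu
    have h2 : ‖R u‖ ≤ ‖D u‖ + ‖R u - D u‖ := by
      calc ‖R u‖ = ‖D u + (R u - D u)‖ := by congr 1; abel
        _ ≤ _ := norm_add_le _ _
    have h3 := hDb u
    have h4 : C * ‖u‖ ^ 2 ≤ (c - b) * ‖u‖ := by
      have h5 : C * ‖u‖ ≤ c - b := (mul_le_mul_of_nonneg_left hu'.le hC).trans hδC
      calc C * ‖u‖ ^ 2 = (C * ‖u‖) * ‖u‖ := by ring
        _ ≤ _ := mul_le_mul_of_nonneg_right h5 (norm_nonneg _)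
    linarith
  have hmaps : MapsTo R (ball (0:F) δ) (ball 0 δ) := by
    intro u hu
    have hu' : ‖u‖ < δ := by simpa using hu
    have h1 := hRc u hu
    have h2 : ‖R u‖ ≤ ‖u‖ := h1.trans (mul_le_of_le_one_left (norm_nonneg _) hc1.le)
    simpa using h2.trans_lt hu'
  have hit : ∀ k : ℕ, ∀ u ∈ ball (0:F) δ, R^[k] u ∈ ball (0:F) δ ∧ ‖R^[k] u‖ ≤ c ^ k * ‖u‖ := by
    intro k u hu
    induction k with
    | zero => simpa using hu
    | succ k ih =>
      rw [Function.iterate_succ_apply']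
      refine ⟨hmaps ih.1, ?_⟩
      calc ‖R (R^[k] u)‖ ≤ c * ‖R^[k] u‖ := hRc _ ih.1
        _ ≤ c * (c ^ k * ‖u‖) := mul_le_mul_of_nonneg_left ih.2 hc0
        _ = _ := by ring
  have hitd : ∀ k : ℕ, ∀ u ∈ ball (0:F) δ, DifferentiableAt ℂ (R^[k]) u := by
    intro k u hu
    induction k with
    | zero => exact differentiableAt_id
    | succ k ih =>
      rw [Function.iterate_succ']
      exact (hball₂ (hsub₂ (hit k u hu).1)).comp u ih
  -- the inverse powers
  set S : ℕ → F →L[ℂ] F := fun k => (D.symm : F →L[ℂ] F) ^ k with hS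
  have hSs : ∀ k u, S (k + 1) u = D.symm (S k u) := by
    intro k u
    simp only [hS, pow_succ']
    rfl
  have hSs' : ∀ k u, S (k + 1) u = S k (D.symm u) := by
    intro k u
    simp only [hS, pow_succ]
    rfl
  have hDs : ∀ u, ‖D.symm u‖ ≤ a⁻¹ * ‖u‖ := by
    intro u
    have h1 := hDa (D.symm u)
    rw [D.apply_symm_apply] at h1
    rw [← div_eq_inv_mul, le_div_iff₀ ha]
    linarith
  have hSb : ∀ k u, ‖S k u‖ ≤ (a⁻¹) ^ k * ‖u‖ := by
    intro k u
    induction k generalizing u with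
    | zero => simp [hS]
    | succ k ih =>
      rw [hSs']
      calc ‖S k (D.symm u)‖ ≤ (a⁻¹) ^ k * ‖D.symm u‖ := ih _
        _ ≤ (a⁻¹) ^ k * (a⁻¹ * ‖u‖) := mul_le_mul_of_nonneg_left (hDs u) (by positivity)
        _ = _ := by ring
  -- the partial sums
  set G : ℕ → F → F := fun k u => S k (R^[k] u) with hG
  set f : ℕ → F → F := fun k u => S (k + 1) (R (R^[k] u) - D (R^[k] u)) with hf
  have hfG : ∀ k u, f k u = G (k + 1) u - G k u := by
    intro k u
    simp only [hf, hG, map_sub, Function.iterate_succ_apply']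
    rw [hSs' k (D (R^[k] u)), D.symm_apply_apply]
  set θ : ℝ := c ^ 2 / a with hθ
  have hθ0 : 0 ≤ θ := by positivity
  have hθ1 : θ < 1 := (div_lt_one ha).2 hca
  set K : ℝ := C * δ ^ 2 / a with hK
  have hK0 : 0 ≤ K := by positivity
  have hfb : ∀ k, ∀ u ∈ ball (0:F) δ, ‖f k u‖ ≤ K * θ ^ k := by
    intro k u hu
    obtain ⟨h1, h2⟩ := hit k u hu
    have h3 := hquad _ (hsub₁ h1)
    have hu' : ‖u‖ ≤ δ := by
      have : ‖u‖ < δ := by simpa using hu
      exact this.le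
    have h4 : ‖R^[k] u‖ ≤ c ^ k * δ := h2.trans (mul_le_mul_of_nonneg_left hu' (by positivity))
    calc ‖f k u‖ ≤ (a⁻¹) ^ (k + 1) * ‖R (R^[k] u) - D (R^[k] u)‖ := hSb _ _
      _ ≤ (a⁻¹) ^ (k + 1) * (C * ‖R^[k] u‖ ^ 2) := mul_le_mul_of_nonneg_left h3 (by positivity)
      _ ≤ (a⁻¹) ^ (k + 1) * (C * (c ^ k * δ) ^ 2) := by gcongr
      _ = K * θ ^ k := by
        rw [hK, hθ, div_pow, pow_succ, inv_pow]
        field_simp
        ring
  have hfd : ∀ k, ∀ u ∈ ball (0:F) δ, DifferentiableAt ℂ (f k) u := by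
    intro k u hu
    have h1 := hitd k u hu
    have h2 := (hball₂ (hsub₂ (hit k u hu).1)).comp u h1
    have h3 := (D.differentiable (R^[k] u)).comp u h1
    exact ((S (k + 1)).differentiableAt).comp u (h2.sub h3)
  have hfder : ∀ k, ∀ u ∈ ball (0:F) (δ / 2), ‖fderiv ℂ (f k) u‖ ≤ K * θ ^ k / (δ / 4) := by
    intro k u hu
    have hsub : closedBall u (δ / 4) ⊆ ball 0 δ := by
      intro w hw
      rw [mem_ball_zero_iff] at hu ⊢
      rw [mem_closedBall, dist_eq_norm] at hw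
      calc ‖w‖ = ‖u + (w - u)‖ := by congr 1; abel
        _ ≤ ‖u‖ + ‖w - u‖ := norm_add_le _ _
        _ < δ := by linarith
    exact cauchy_fderiv (by positivity) (by positivity) (fun w hw => hfd k w (hsub hw))
      (fun w hw => hfb k w (hsub hw))
  have hsum : Summable (fun k => K * θ ^ k / (δ / 4)) :=
    ((summable_geometric_of_lt_one hθ0 hθ1).mul_left K).div_const _
  have hsumf : ∀ u ∈ ball (0:F) δ, Summable (fun k => f k u) := by
    intro u hu
    exact Summable.of_norm_bounded ((summable_geometric_of_lt_one hθ0 hθ1).mul_left K)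
      (fun k => hfb k u hu)
  have h0δ : (0:F) ∈ ball (0:F) (δ / 2) := mem_ball_self (by positivity)
  have hhalf : ball (0:F) (δ / 2) ⊆ ball 0 δ := ball_subset_ball (by linarith)
  have hder : ∀ u ∈ ball (0:F) (δ / 2), HasFDerivAt (fun y => ∑' k, f k y)
      (∑' k, fderiv ℂ (f k) u) u := by
    intro u hu
    exact hasFDerivAt_tsum_of_isPreconnected (𝕜 := ℂ) hsum isOpen_ball
      (convex_ball (0:F) (δ / 2)).isPreconnected
      (fun k x hx => (hfd k x (hhalf hx)).hasFDerivAt) hfder h0δ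
      (hsumf 0 (mem_ball_self hδ)) hu
  have hlim : ∀ u ∈ ball (0:F) δ, Tendsto (fun k => G k u) atTop (𝓝 (u + ∑' k, f k u)) := by
    intro u hu
    have h1 := (hsumf u hu).hasSum.tendsto_sum_nat
    have h2 : ∀ k, G k u = u + ∑ i ∈ Finset.range k, f i u := by
      intro k
      induction k with
      | zero => simp [hG, hS]
      | succ k ih =>
        rw [Finset.sum_range_succ, ← add_assoc, ← ih, hfG]
        abel
    simp only [h2]
    exact h1.const_add u
  have hf0 : ∀ k, f k 0 = 0 := by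
    intro k
    have h1 : R^[k] (0:F) = 0 := Function.iterate_fixed hR0 k
    simp only [hf, h1, hR0, map_zero, sub_self]
  refine ⟨δ / 2, by positivity, fun u => u + ∑' k, f k u, fun u hu => ?_, ?_, ?_, ?_, ?_⟩
  · exact (differentiableAt_id.add (hder u hu).differentiableAt).differentiableWithinAt
  · simp [hf0]
  · have h1 := (hasFDerivAt_id (𝕜 := ℂ) (0:F)).add (hder 0 h0δ)
    have h2 : ∀ k, fderiv ℂ (f k) 0 = 0 := by
      intro k
      have h3 : R^[k] (0:F) = 0 := Function.iterate_fixed hR0 k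
      have h4 : HasFDerivAt (fun u => R u - D u) (0 : F →L[ℂ] F) (R^[k] (0:F)) := by
        rw [h3]
        have := hR.sub D.hasFDerivAt (x := (0:F))
        rwa [sub_self] at this
      have h5 := h4.comp (0:F) (hitd k 0 (mem_ball_self hδ)).hasFDerivAt
      have h6 := ((S (k + 1)).hasFDerivAt).comp (0:F) h5
      rw [ContinuousLinearMap.zero_comp, ContinuousLinearMap.comp_zero] at h6
      exact h6.fderiv
    simp only [h2, tsum_zero, add_zero] at h1
    exact h1
  · intro u hu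
    have h1 := hRc u (hhalf hu)
    exact h1.trans (mul_le_of_le_one_left (norm_nonneg _) hc1.le)
  · intro u hu
    have hu2 := hhalf hu
    have h1 := hlim (R u) (hmaps hu2)
    have h2 := (D.continuous.tendsto _).comp ((hlim u hu2).comp (tendsto_add_atTop_nat 1))
    have h3 : (D ∘ (fun k => G k u) ∘ fun k => k + 1) = fun k => G k (R u) := by
      funext k
      simp only [Function.comp, hG]
      rw [hSs, D.apply_symm_apply, Function.iterate_succ_apply]
    rw [h3] at h2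
    exact tendsto_nhds_unique h1 h2

end Vale.Agent.P253.S445
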