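import Vale.Agent.P253.S445.Koe
import Vale.Agent.P253.S445.Fix

/-!
P253: Koenigs linearization of a holomorphic action of `ℂ` whose positive times contract the whole
manifold to a fixed point with pinched spectrum.
-/

open scoped Manifold ContDiff Topology Bundle
open Set Metric Complex Filter Bundle IsManifold Manifold Vale.Agent.P253.Mfd
  Vale.Agent.P253.CStar

set_option maxSynthPendingDepth 3
set_option linter.unusedSectionVars false

noncomputable section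

namespace Vale.Agent.P253.S445

open Vale.Agent.P253.R2 Vale.Agent.P253.R2.H445

variable {E : Type*} [NormedAddCommGroup E] [NormedSpace ℂ E] [FiniteDimensional ℂ E]
  {M : Type*} [MetricSpace M] [ChartedSpace E M] [IsManifold 𝓘(ℂ, E) 1 M]
  {ψ : ℂ → M → M} {p : M}

variable (E) in
/-- the differential of `ψ ζ` at `p` -/
def Dm (ψ : ℂ → M → M) (p : M) (ζ : ℂ) : E →L[ℂ] E := mfderiv 𝓘(ℂ, E) 𝓘(ℂ, E) (ψ ζ) p

theorem hasMFDerivAt_Dm (h : IsHolCFlow E ψ) (ζ : ℂ) :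
    HasMFDerivAt 𝓘(ℂ, E) 𝓘(ℂ, E) (ψ ζ) p (Dm E ψ p ζ) :=
  (cflow_mdiff h ζ p).hasMFDerivAt

theorem Dm_zero (h : IsHolCFlow E ψ) : Dm E ψ p 0 = ContinuousLinearMap.id ℂ E := by
  have h1 := hasMFDerivAt_Dm (p := p) h 0
  have h2 : ψ 0 = id := funext fun x => h.zero x
  rw [h2] at h1
  exact hasMFDerivAt_unique h1 (hasMFDerivAt_id _)

theorem Dm_add (h : IsHolCFlow E ψ) (hp : ∀ ζ, ψ ζ p = p) (s t : ℂ) :
    Dm E ψ p (s + t) = (Dm E ψ p s).comp (Dm E ψ p t) := by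
  have h1 := hasMFDerivAt_Dm (p := p) h (s + t)
  have h2 : ψ (s + t) = ψ s ∘ ψ t := funext fun x => h.add s t x
  rw [h2] at h1
  have h3 : HasMFDerivAt 𝓘(ℂ, E) 𝓘(ℂ, E) (ψ s) (ψ t p) (Dm E ψ p s) := by
    rw [hp t]
    exact hasMFDerivAt_Dm h s
  exact hasMFDerivAt_unique h1 (h3.comp p (hasMFDerivAt_Dm h t))

theorem Dm_add_apply (h : IsHolCFlow E ψ) (hp : ∀ ζ, ψ ζ p = p) (s t : ℂ) (v : E) :
    Dm E ψ p (s + t) v = Dm E ψ p s (Dm E ψ p t v) := by
  rw [Dm_add h hp]; rfl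

/-- the differential as an equivalence -/
def De (h : IsHolCFlow E ψ) (hp : ∀ ζ, ψ ζ p = p) (ζ : ℂ) : E ≃L[ℂ] E where
  toFun := Dm E ψ p ζ
  invFun := Dm E ψ p (-ζ)
  map_add' := map_add _
  map_smul' := map_smul _
  left_inv v := by rw [← Dm_add_apply h hp, neg_add_cancel, Dm_zero h]; rfl
  right_inv v := by rw [← Dm_add_apply h hp, add_neg_cancel, Dm_zero h]; rfl
  continuous_toFun := (Dm E ψ p ζ).continuous
  continuous_invFun := (Dm E ψ p (-ζ)).continuous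

theorem De_apply (h : IsHolCFlow E ψ) (hp : ∀ ζ, ψ ζ p = p) (ζ : ℂ) (v : E) :
    De h hp ζ v = Dm E ψ p ζ v := rfl

/-- the map `ψ ζ` in the chart at `p`, centred at `0` -/
def Rh (E : Type*) [NormedAddCommGroup E] [NormedSpace ℂ E] [ChartedSpace E M]
    (ψ : ℂ → M → M) (p : M) (ζ : ℂ) (u : E) : E :=
  HC ψ (chartAt E p) (chartAt E p) (ζ, u + chartAt E p p) - chartAt E p p

theorem Rh_zero (hp : ∀ ζ, ψ ζ p = p) (ζ : ℂ) : Rh E ψ p ζ 0 = 0 := by
  simp only [Rh, HC, zero_add]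
  rw [(chartAt E p).left_inv (mem_chart_source E p), hp, sub_self]

theorem hasFDerivAt_Rh (h : IsHolCFlow E ψ) (hp : ∀ ζ, ψ ζ p = p) (ζ : ℂ) :
    HasFDerivAt (Rh E ψ p ζ) (Dm E ψ p ζ) 0 := by
  have h1 : HasFDerivAt (fun w => HC ψ (chartAt E p) (chartAt E p) (ζ, w)) (Dm E ψ p ζ)
      ((0 : E) + chartAt E p p) := by
    rw [zero_add]
    exact mfderiv_fixed h hp ζ
  have h2 : HasFDerivAt (fun u : E => u + chartAt E p p) (ContinuousLinearMap.id ℂ E) 0 :=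
    (hasFDerivAt_id _).add_const _
  have h3 := (h1.comp (0 : E) h2).sub_const (chartAt E p p)
  rw [ContinuousLinearMap.comp_id] at h3
  exact h3

theorem mem_HCΩ_fixed (hp : ∀ ζ, ψ ζ p = p) (ζ : ℂ) :
    (ζ, chartAt E p p) ∈ HCΩ ψ (chartAt E p) (chartAt E p) :=
  ⟨(chartAt E p).map_source (mem_chart_source E p), by
    simp only
    rw [(chartAt E p).left_inv (mem_chart_source E p), hp]
    exact mem_chart_source E p⟩

theorem contDiffAt_Rh (h : IsHolCFlow E ψ) (hp : ∀ ζ, ψ ζ p = p) (ζ : ℂ) :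
    ContDiffAt ℂ ∞ (Rh E ψ p ζ) 0 := by
  have hem : chartAt E p ∈ maximalAtlas 𝓘(ℂ, E) 1 M := chart_mem_maximalAtlas p
  have h1 : ContDiffAt ℂ ∞ (HC ψ (chartAt E p) (chartAt E p)) (ζ, (0 : E) + chartAt E p p) := by
    rw [zero_add]
    exact (contDiffOn_HC_top h hem hem).contDiffAt
      ((isOpen_HCΩ' h).mem_nhds (mem_HCΩ_fixed hp ζ))
  have h2 : ContDiffAt ℂ ∞ (fun u : E => (ζ, u + chartAt E p p)) 0 :=
    contDiffAt_const.prodMk (contDiffAt_id.add contDiffAt_const)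
  have h3 : ContDiffAt ℂ ∞ (fun u : E => HC ψ (chartAt E p) (chartAt E p)
      (ζ, u + chartAt E p p)) 0 := ContDiffAt.comp (0 : E) (g := HC ψ _ _) h1 h2
  exact h3.sub contDiffAt_const

/-- holomorphic linearization near the fixed point -/
theorem exists_local (h : IsHolCFlow E ψ) (hp : ∀ ζ, ψ ζ p = p) {T : ℂ} {a b : ℝ}
    (hb : b < 1) (hab : b ^ 2 < a) (hDa : ∀ v, a * ‖v‖ ≤ ‖Dm E ψ p T v‖)
    (hDb : ∀ v, ‖Dm E ψ p T v‖ ≤ b * ‖v‖) :
    ∃ (V : Set M) (Λ : M → E) (δ : ℝ) (L : E → E), IsOpen V ∧ p ∈ V ∧ 0 < δ ∧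
      DifferentiableOn ℂ L (ball 0 δ) ∧ L 0 = 0 ∧
      HasFDerivAt L (ContinuousLinearMap.id ℂ E) 0 ∧
      V = {x | x ∈ (chartAt E p).source ∧ chartAt E p x - chartAt E p p ∈ ball (0 : E) δ} ∧
      (∀ x, Λ x = L (chartAt E p x - chartAt E p p)) ∧
      (∀ u ∈ ball (0 : E) δ, u + chartAt E p p ∈ (chartAt E p).target) ∧
      ∀ x ∈ V, ψ T x ∈ V ∧ Λ (ψ T x) = Dm E ψ p T (Λ x) := by
  have hCE : CompleteSpace E := FiniteDimensional.complete ℂ E
  have ha : 0 < a := (sq_nonneg b).trans_lt hab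
  set e := chartAt E p with he
  have hps : p ∈ e.source := mem_chart_source E p
  set z₀ := e p with hz₀
  obtain ⟨δ, hδ, L, hL, hL0, hL1, hR, hLR⟩ := koenigs_local (R := Rh E ψ p T) (D := De h hp T)
    (a := a) (b := max b 0) ha (max_lt hb one_pos) (le_max_right _ _) (by
      rcases le_total b 0 with hb0 | hb0
      · rw [max_eq_right hb0]; simpa using ha
      · rw [max_eq_left hb0]; exact hab) hDa
    (fun v => (hDb v).trans (mul_le_mul_of_nonneg_right (le_max_left _ _) (norm_nonneg _)))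
    ((contDiffAt_Rh h hp T).of_le (WithTop.coe_le_coe.2 le_top)) (Rh_zero hp T)
    (hasFDerivAt_Rh h hp T)
  have h1 : ∀ᶠ u : E in 𝓝 0, (T, u + z₀) ∈ HCΩ ψ e e := by
    have hc : Continuous (fun u : E => (T, u + z₀)) := by fun_prop
    have h2 := hc.tendsto 0
    rw [zero_add] at h2
    exact h2.eventually ((isOpen_HCΩ' h).mem_nhds (mem_HCΩ_fixed hp T))
  obtain ⟨δ₁, hδ₁, hball⟩ := Metric.eventually_nhds_iff_ball.1 h1
  set δ' := min δ δ₁ with hδ'
  have hδ'0 : 0 < δ' := lt_min hδ hδ₁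
  have hs : ball (0:E) δ' ⊆ ball 0 δ := ball_subset_ball (min_le_left _ _)
  have hs₁ : ball (0:E) δ' ⊆ ball 0 δ₁ := ball_subset_ball (min_le_right _ _)
  refine ⟨_, fun x => L (e x - z₀), δ', L, ?_, ?_, hδ'0, hL.mono hs, hL0, hL1, rfl,
    fun x => rfl, fun u hu => (hball u (hs₁ hu)).1, ?_⟩
  · exact e.isOpen_inter_preimage ((continuous_sub_right z₀).isOpen_preimage _ isOpen_ball)
  · exact ⟨hps, by rw [sub_self]; exact mem_ball_self hδ'0⟩
  · rintro x ⟨hx1, hx2⟩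
    have h3 : (e x - z₀) + z₀ = e x := sub_add_cancel _ _
    have h4 : ψ T x ∈ e.source := by
      have h5 := (hball _ (hs₁ hx2)).2
      rw [h3] at h5
      simp only at h5
      rw [e.left_inv hx1] at h5
      exact h5
    have h5 : Rh E ψ p T (e x - z₀) = e (ψ T x) - z₀ := by
      simp only [Rh, HC]
      rw [← he, ← hz₀, h3, e.left_inv hx1]
    have h6 : ‖e (ψ T x) - z₀‖ ≤ ‖e x - z₀‖ := by
      rw [← h5]
      exact hR _ (hs hx2)
    refine ⟨⟨h4, ?_⟩, ?_⟩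
    · rw [mem_ball_zero_iff] at hx2 ⊢
      exact h6.trans_lt hx2
    · have h7 := hLR _ (hs hx2)
      rw [h5] at h7
      exact h7

end Vale.Agent.P253.S445
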