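import Vale.Agent.P253.S445.Koe2
import Mathlib.Analysis.Calculus.InverseFunctionTheorem.ContDiff

/-!
P253: Koenigs linearization of a holomorphic action of `ℂ` whose positive times contract the whole
manifold to a fixed point with pinched spectrum (global part).
-/

open scoped Manifold ContDiff Topology Bundle
open Set Metric Complex Filter Bundle IsManifold Manifold Vale.Agent.P253.Mfd
  Vale.Agent.P253.CStar

set_option maxSynthPendingDepth 3
set_option linter.unusedSectionVars false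

noncomputable section

namespace Vale.Agent.P253.S445

open Vale.Agent.P253.R2 Vale.Agent.P253.R2.H445

variable {E : Type*} [NormedAddCommGroup E] [NormedSpace ℂ E] [FiniteDimensional ℂ E]
  {M : Type*} [MetricSpace M] [ChartedSpace E M] [IsManifold 𝓘(ℂ, E) 1 M]
  {ψ : ℂ → M → M} {p : M}

theorem Dm_neg_apply (h : IsHolCFlow E ψ) (hp : ∀ ζ, ψ ζ p = p) (ζ : ℂ) (v : E) :
    Dm E ψ p (-ζ) (Dm E ψ p ζ v) = v := by
  rw [← Dm_add_apply h hp, neg_add_cancel, Dm_zero h]; rfl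

theorem Dm_apply_neg (h : IsHolCFlow E ψ) (hp : ∀ ζ, ψ ζ p = p) (ζ : ℂ) (v : E) :
    Dm E ψ p ζ (Dm E ψ p (-ζ) v) = v := by
  rw [← Dm_add_apply h hp, add_neg_cancel, Dm_zero h]; rfl

theorem psi_neg (h : IsHolCFlow E ψ) (ζ : ℂ) (x : M) : ψ (-ζ) (ψ ζ x) = x := by
  rw [← h.add, neg_add_cancel, h.zero]

theorem psi_neg' (h : IsHolCFlow E ψ) (ζ : ℂ) (x : M) : ψ ζ (ψ (-ζ) x) = x := by
  rw [← h.add, add_neg_cancel, h.zero]

theorem cflow_smooth (h : IsHolCFlow E ψ) (ζ : ℂ) : ContMDiff 𝓘(ℂ, E) 𝓘(ℂ, E) 1 (ψ ζ) :=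
  h.holo.comp (contMDiff_const.prodMk contMDiff_id)

/-- powers of a contraction -/
theorem tendsto_Dm (h : IsHolCFlow E ψ) (hp : ∀ ζ, ψ ζ p = p) {T : ℂ} {b : ℝ}
    (hb : b < 1) (hDb : ∀ v, ‖Dm E ψ p T v‖ ≤ b * ‖v‖) (v : E) :
    Tendsto (fun k : ℕ => Dm E ψ p (k * T) v) atTop (𝓝 0) := by
  set c := max b 0 with hc
  have hc0 : 0 ≤ c := le_max_right _ _
  have hc1 : c < 1 := max_lt hb one_pos
  have h1 : ∀ k : ℕ, ‖Dm E ψ p (k * T) v‖ ≤ c ^ k * ‖v‖ := by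
    intro k
    induction k with
    | zero => simp [Dm_zero h]
    | succ k ih =>
      have h2 : ((k + 1 : ℕ) : ℂ) * T = T + k * T := by push_cast; ring
      rw [h2, Dm_add_apply h hp]
      calc _ ≤ b * ‖Dm E ψ p (k * T) v‖ := hDb _
        _ ≤ c * ‖Dm E ψ p (k * T) v‖ :=
          mul_le_mul_of_nonneg_right (le_max_left _ _) (norm_nonneg _)
        _ ≤ c * (c ^ k * ‖v‖) := mul_le_mul_of_nonneg_left ih hc0
        _ = _ := by ring
  refine squeeze_zero_norm h1 ?_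
  simpa using (tendsto_pow_atTop_nhds_zero_of_lt_one hc0 hc1).mul_const ‖v‖

/-- the linearization by the time `T` -/
theorem koenigs_T (h : IsHolCFlow E ψ) (hp : ∀ ζ, ψ ζ p = p) {T : ℝ} (hT : 0 < T) {a b : ℝ}
    (hb : b < 1) (hab : b ^ 2 < a) (hDa : ∀ v, a * ‖v‖ ≤ ‖Dm E ψ p T v‖)
    (hDb : ∀ v, ‖Dm E ψ p T v‖ ≤ b * ‖v‖)
    (hbas : ∀ x, Tendsto (fun t : ℝ => ψ t x) atTop (𝓝 p)) :
    ∃ F : M ≃ₘ^1⟮𝓘(ℂ, E), 𝓘(ℂ, E)⟯ E, F p = 0 ∧
      HasMFDerivAt 𝓘(ℂ, E) 𝓘(ℂ, E) F p (ContinuousLinearMap.id ℂ E) ∧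
      ∀ x : M, F (ψ T x) = Dm E ψ p T (F x) := by
  have hCE : CompleteSpace E := FiniteDimensional.complete ℂ E
  obtain ⟨V, Λ, δ, L, hVo, hpV, hδ, hL, hL0, hL1, hV, hΛ, htgt, hstep1⟩ :=
    exists_local h hp hb hab hDa hDb
  set e := chartAt E p with he
  have hem : e ∈ maximalAtlas 𝓘(ℂ, E) 1 M := chart_mem_maximalAtlas p
  have hps : p ∈ e.source := mem_chart_source E p
  set z₀ := e p with hz₀
  have hsucc : ∀ k : ℕ, ((k + 1 : ℕ) : ℂ) * (T : ℂ) = T + k * T := by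
    intro k; push_cast; ring
  have hstep : ∀ x ∈ V, ∀ j : ℕ, ψ (j * T) x ∈ V ∧ Λ (ψ (j * T) x) = Dm E ψ p (j * T) (Λ x) := by
    intro x hx j
    induction j with
    | zero => simp [h.zero, hx, Dm_zero h]
    | succ j ih =>
      rw [hsucc, h.add]
      obtain ⟨h1, h2⟩ := hstep1 _ ih.1
      refine ⟨h1, ?_⟩
      rw [h2, ih.2, Dm_add_apply h hp]
  have htk : Tendsto (fun k : ℕ => ((k : ℝ) * T)) atTop atTop :=
    tendsto_natCast_atTop_atTop.atTop_mul_const hT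
  have hev : ∀ (x : M) (W : Set M), W ∈ 𝓝 p → ∀ᶠ k : ℕ in atTop, ψ (k * T) x ∈ W := by
    intro x W hW
    have h1 := ((hbas x).comp htk).eventually hW
    filter_upwards [h1] with k hk
    have h2 : (((k : ℝ) * T : ℝ) : ℂ) = (k : ℂ) * T := by push_cast; rfl
    simp only [Function.comp, h2] at hk
    exact hk
  have hVn : V ∈ 𝓝 p := hVo.mem_nhds hpV
  have hex : ∀ x, ∃ k : ℕ, ψ (k * T) x ∈ V := fun x => (hev x V hVn).exists
  choose κ hκ using hex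
  set F : M → E := fun x => Dm E ψ p (-(κ x * T)) (Λ (ψ (κ x * T) x)) with hFdef
  have hshift : ∀ (x : M) (k j : ℕ), ψ (k * T) x ∈ V →
      Dm E ψ p (-(((k + j : ℕ) : ℂ) * T)) (Λ (ψ (((k + j : ℕ) : ℂ) * T) x)) =
        Dm E ψ p (-(k * T)) (Λ (ψ (k * T) x)) := by
    intro x k j hk
    have h1 : ((k + j : ℕ) : ℂ) * (T : ℂ) = j * T + k * T := by push_cast; ring
    have h2 : -((j : ℂ) * T + k * T) = -(k * T) + -(j * T) := by ring
    rw [h1, h.add, (hstep _ hk j).2, h2, Dm_add_apply h hp, Dm_neg_apply h hp]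
  have hF : ∀ (x : M) (k : ℕ), ψ (k * T) x ∈ V →
      F x = Dm E ψ p (-(k * T)) (Λ (ψ (k * T) x)) := by
    intro x k hk
    simp only [hFdef]
    rw [← hshift x (κ x) k (hκ x), ← hshift x k (κ x) hk, add_comm]
  have hFV : ∀ x ∈ V, F x = Λ x := by
    intro x hx
    have h1 := hF x 0 (by simpa [h.zero] using hx)
    simpa [h.zero, Dm_zero h] using h1
  have hFj : ∀ (x : M) (j : ℕ), F (ψ (j * T) x) = Dm E ψ p (j * T) (F x) := by
    intro x j
    obtain hk := hκ x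
    set k := κ x with hkdef
    have h1 : ψ (k * T) (ψ (j * T) x) = ψ (j * T) (ψ (k * T) x) := by
      rw [← h.add, ← h.add, add_comm]
    have h2 := hstep _ hk j
    rw [hF (ψ (j * T) x) k (by rw [h1]; exact h2.1), h1, h2.2, hF x k hk, ← Dm_add_apply h hp,
      ← Dm_add_apply h hp, add_comm]
  have hFT : ∀ x, F (ψ T x) = Dm E ψ p T (F x) := by
    intro x
    have := hFj x 1
    simpa using this
  -- smoothness
  have hLs : ContDiffOn ℂ ∞ L (ball 0 δ) := contDiffOn_of_differentiableOn_complex isOpen_ball hL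
  have hΛs : ∀ y ∈ V, ContMDiffAt 𝓘(ℂ, E) 𝓘(ℂ, E) 1 Λ y := by
    intro y hy
    rw [hV] at hy
    have h1 : ContMDiffAt 𝓘(ℂ, E) 𝓘(ℂ, E) 1 e y :=
      (contMDiffOn_of_mem_maximalAtlas hem).contMDiffAt (e.open_source.mem_nhds hy.1)
    have h2 : ContDiffAt ℂ 1 (fun w : E => L (w - z₀)) (e y) := by
      have h3 : ContDiffAt ℂ 1 L (e y - z₀) :=
        (hLs.contDiffAt (isOpen_ball.mem_nhds hy.2)).of_le (by simp)
      exact ContDiffAt.comp (e y) (g := L) (f := fun w : E => w - z₀) h3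
        (contDiffAt_id.sub contDiffAt_const)
    have h3 := h2.contMDiffAt.comp y h1
    have h4 : Λ = (fun w : E => L (w - z₀)) ∘ e := funext fun x => hΛ x
    rw [h4]
    exact h3
  have hFs : ContMDiff 𝓘(ℂ, E) 𝓘(ℂ, E) 1 F := by
    intro x
    set k := κ x with hkdef
    have hk : ψ (k * T) x ∈ V := hκ x
    have hc : Continuous (ψ (k * T)) := (cflow_smooth h _).continuous
    have h1 : ∀ᶠ y in 𝓝 x, F y = Dm E ψ p (-(k * T)) (Λ (ψ (k * T) y)) := by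
      filter_upwards [(hVo.preimage hc).mem_nhds hk] with y hy
      exact hF y k hy
    have h2 : ContMDiffAt 𝓘(ℂ, E) 𝓘(ℂ, E) 1 (fun y => Λ (ψ (k * T) y)) x :=
      (hΛs _ hk).comp x ((cflow_smooth h _) x)
    have h3 : ContMDiffAt 𝓘(ℂ, E) 𝓘(ℂ, E) 1 (fun y => Dm E ψ p (-(k * T)) (Λ (ψ (k * T) y))) x :=
      ((Dm E ψ p (-(k * T))).contDiff.contMDiff _).comp x h2
    exact h3.congr_of_eventuallyEq h1
  -- the local inverse
  have hLc : ContDiffAt ℂ 1 L 0 :=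
    (hLs.contDiffAt (isOpen_ball.mem_nhds (mem_ball_self hδ))).of_le (by simp)
  have hL1' : HasFDerivAt L ((ContinuousLinearEquiv.refl ℂ E : E ≃L[ℂ] E) : E →L[ℂ] E) 0 := hL1
  set ℓ : OpenPartialHomeomorph E E := hLc.toOpenPartialHomeomorph L hL1' one_ne_zero with hℓ
  have hℓc : ∀ u, ℓ u = L u := fun u => rfl
  have h0s : (0 : E) ∈ ℓ.source := hLc.mem_toOpenPartialHomeomorph_source hL1' one_ne_zero
  have h0t : (0 : E) ∈ ℓ.target := by
    have h1 := hLc.image_mem_toOpenPartialHomeomorph_target hL1' one_ne_zero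
    rwa [hL0] at h1
  have hℓ0 : ℓ.symm 0 = 0 := by
    have h1 := ℓ.left_inv h0s
    rwa [hℓc, hL0] at h1
  have hℓs : ∀ᶠ w in 𝓝 (0:E), ContDiffAt ℂ 1 ℓ.symm w := by
    have h1 := hLc.to_localInverse hL1' one_ne_zero
    rw [hL0] at h1
    exact h1.eventually (by simp)
  have hgood : ∀ᶠ w in 𝓝 (0:E), w ∈ ℓ.target ∧ ℓ.symm w ∈ ball (0:E) δ ∧
      ContDiffAt ℂ 1 ℓ.symm w := by
    have hA : ∀ᶠ w in 𝓝 (0:E), w ∈ ℓ.target := ℓ.open_target.mem_nhds h0t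
    refine hA.and (Filter.Eventually.and ?_ hℓs)
    have h1 := (ℓ.continuousAt_symm h0t).tendsto
    rw [hℓ0] at h1
    exact h1.eventually (ball_mem_nhds (0:E) hδ)
  obtain ⟨r, hr, hball⟩ := Metric.eventually_nhds_iff_ball.1 hgood
  -- injectivity
  have hinjpsi : ∀ ζ : ℂ, Function.Injective (ψ ζ) := fun ζ x y hxy => by
    have := congrArg (ψ (-ζ)) hxy
    rwa [psi_neg h, psi_neg h] at this
  have hcφ : Tendsto (fun x => e x - z₀) (𝓝 p) (𝓝 0) := by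
    have h2 := (e.continuousAt hps).tendsto.sub_const z₀
    rwa [← hz₀, sub_self] at h2
  have hinj : Function.Injective F := by
    intro x y hxy
    have hN : {x | x ∈ V ∧ e x - z₀ ∈ ℓ.source} ∈ 𝓝 p :=
      inter_mem hVn (hcφ.eventually (ℓ.open_source.mem_nhds h0s))
    obtain ⟨k, hx, hy⟩ := ((hev x _ hN).and (hev y _ hN)).exists
    have h1 : Λ (ψ (k * T) x) = Λ (ψ (k * T) y) := by
      rw [← hFV _ hx.1, ← hFV _ hy.1, hFj, hFj, hxy]
    rw [hΛ, hΛ] at h1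
    have h2 := ℓ.injOn hx.2 hy.2 h1
    have h3 : e (ψ (k * T) x) = e (ψ (k * T) y) := sub_left_injective h2
    have hx' := hx.1
    have hy' := hy.1
    rw [hV] at hx' hy'
    exact hinjpsi _ (e.injOn hx'.1 hy'.1 h3)
  -- the inverse
  set Gk : ℕ → E → M := fun k v => ψ (-(k * T)) (e.symm (ℓ.symm (Dm E ψ p (k * T) v) + z₀))
    with hGk
  have hGkF : ∀ (k : ℕ) (v : E), Dm E ψ p (k * T) v ∈ ball (0:E) r → F (Gk k v) = v := by
    intro k v hv
    obtain ⟨h1, h2, h3⟩ := hball _ hv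
    set u := ℓ.symm (Dm E ψ p (k * T) v) with hu
    have h4 := htgt u h2
    have h5 : e.symm (u + z₀) ∈ V := by
      rw [hV]
      refine ⟨e.map_target h4, ?_⟩
      rw [e.right_inv h4, add_sub_cancel_right]
      exact h2
    have h6 : Λ (e.symm (u + z₀)) = Dm E ψ p (k * T) v := by
      rw [hΛ, e.right_inv h4, add_sub_cancel_right, ← hℓc, hu, ℓ.right_inv h1]
    have h7 : ψ (k * T) (Gk k v) = e.symm (u + z₀) := by
      simp only [hGk]
      exact psi_neg' h _ _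
    rw [hF (Gk k v) k (by rw [h7]; exact h5), h7, h6, Dm_neg_apply h hp]
  have hexk : ∀ v : E, ∃ k : ℕ, Dm E ψ p (k * T) v ∈ ball (0:E) r := fun v =>
    ((tendsto_Dm h hp hb hDb v).eventually (ball_mem_nhds (0:E) hr)).exists
  have hsurj : Function.Surjective F := fun v => by
    obtain ⟨k, hk⟩ := hexk v
    exact ⟨Gk k v, hGkF k v hk⟩
  set Fe : M ≃ E := Equiv.ofBijective F ⟨hinj, hsurj⟩ with hFe
  have hFea : ∀ x, Fe x = F x := fun x => rfl
  have hGs : ContMDiff 𝓘(ℂ, E) 𝓘(ℂ, E) 1 Fe.symm := by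
    intro v
    obtain ⟨k, hk⟩ := hexk v
    have h1 : ∀ᶠ w in 𝓝 v, Fe.symm w = Gk k w := by
      have hc : Continuous (Dm E ψ p (k * T)) := (Dm E ψ p (k * T)).continuous
      filter_upwards [(isOpen_ball.preimage hc).mem_nhds hk] with w hw
      rw [Equiv.symm_apply_eq, hFea, hGkF k w hw]
    obtain ⟨h2, h3, h4⟩ := hball _ hk
    have h5 : ContDiffAt ℂ 1 (fun w : E => ℓ.symm (Dm E ψ p (k * T) w) + z₀) v :=
      (ContDiffAt.comp v (g := ℓ.symm) (f := fun w : E => Dm E ψ p (k * T) w) h4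
        (Dm E ψ p (k * T)).contDiff.contDiffAt).add contDiffAt_const
    have h6 : ContMDiffAt 𝓘(ℂ, E) 𝓘(ℂ, E) 1 e.symm (ℓ.symm (Dm E ψ p (k * T) v) + z₀) :=
      (contMDiffOn_symm_of_mem_maximalAtlas hem).contMDiffAt
        (e.open_target.mem_nhds (htgt _ h3))
    have h7 : ContMDiffAt 𝓘(ℂ, E) 𝓘(ℂ, E) 1
        (fun w : E => e.symm (ℓ.symm (Dm E ψ p (k * T) w) + z₀)) v :=
      ContMDiffAt.comp v (g := e.symm) h6 h5.contMDiffAt
    have h8 : ContMDiffAt 𝓘(ℂ, E) 𝓘(ℂ, E) 1 (Gk k) v :=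
      ((cflow_smooth h (-(k * T))) _).comp v h7
    exact h8.congr_of_eventuallyEq h1
  let Φ : M ≃ₘ^1⟮𝓘(ℂ, E), 𝓘(ℂ, E)⟯ E :=
    { toEquiv := Fe
      contMDiff_toFun := hFs
      contMDiff_invFun := hGs }
  have hΦ : ∀ x, Φ x = F x := fun x => rfl
  refine ⟨Φ, ?_, ?_, hFT⟩
  · rw [hΦ, hFV p hpV, hΛ, ← hz₀, sub_self, hL0]
  · have hmd : MDifferentiableAt 𝓘(ℂ, E) 𝓘(ℂ, E) Φ p := (hFs.mdifferentiable (by simp)) p
    have h0 : (mfderiv 𝓘(ℂ, E) 𝓘(ℂ, E) Φ p : E →L[ℂ] E) =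
        fderivWithin ℂ (writtenInExtChartAt 𝓘(ℂ, E) 𝓘(ℂ, E) p Φ) (range 𝓘(ℂ, E))
          (extChartAt 𝓘(ℂ, E) p p) := hmd.mfderiv
    have h1 : (mfderiv 𝓘(ℂ, E) 𝓘(ℂ, E) Φ p : E →L[ℂ] E) =
        fderiv ℂ (fun w => F (e.symm w)) z₀ := by
      rw [h0]
      simp only [writtenInExtChartAt, extChartAt, mfld_simps, fderivWithin_univ]
      rfl
    have h2 : ∀ᶠ w in 𝓝 z₀, F (e.symm w) = L (w - z₀) := by
      have h3 : ∀ᶠ w in 𝓝 z₀, e.symm w ∈ V := by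
        have h4 := (e.continuousAt_symm (e.map_source hps)).tendsto
        rw [e.left_inv hps] at h4
        exact h4.eventually hVn
      filter_upwards [h3, e.open_target.mem_nhds (e.map_source hps)] with w hw hw2
      rw [hFV _ hw, hΛ, e.right_inv hw2]
    have h3 : HasFDerivAt (fun w => L (w - z₀)) (ContinuousLinearMap.id ℂ E) z₀ := by
      have h4 : HasFDerivAt L (ContinuousLinearMap.id ℂ E) (z₀ - z₀) := by rwa [sub_self]
      have h5 : HasFDerivAt (fun w : E => w - z₀) (ContinuousLinearMap.id ℂ E) z₀ :=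
        (hasFDerivAt_id z₀).sub_const z₀
      have h6 := HasFDerivAt.comp z₀ (g := L) (f := fun w : E => w - z₀) h4 h5
      rwa [ContinuousLinearMap.id_comp] at h6
    have h4 : fderiv ℂ (fun w => F (e.symm w)) z₀ = ContinuousLinearMap.id ℂ E := by
      rw [Filter.EventuallyEq.fderiv_eq h2, h3.fderiv]
    rw [h4] at h1
    have h5 := hmd.hasMFDerivAt
    have h6 : (mfderiv 𝓘(ℂ, E) 𝓘(ℂ, E) Φ p) = (ContinuousLinearMap.id ℂ E : E →L[ℂ] E) := h1
    rw [h6] at h5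
    exact h5

end Vale.Agent.P253.S445
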