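import Vale.Agent.P253.S445.Koe3
import Vale.Agent.P253.S445.Conv

/-!
P253: one-parameter semigroups of holomorphic self-maps which contract the whole manifold to a
point.
-/

open scoped Manifold ContDiff Topology Bundle
open Set Metric Complex Filter Bundle IsManifold Manifold Vale.Agent.P253.Mfd
  Vale.Agent.P253.CStar

set_option maxSynthPendingDepth 3
set_option linter.unusedSectionVars false

noncomputable section

namespace Vale.Agent.P253.S445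

open Vale.Agent.P253.R2 Vale.Agent.P253.R2.H445

variable {E : Type*} [NormedAddCommGroup E] [NormedSpace ℂ E] [FiniteDimensional ℂ E]
  {M : Type*} [MetricSpace M] [ChartedSpace E M] [IsManifold 𝓘(ℂ, E) 1 M]
  {ψ : ℂ → M → M} {ρ : ℝ → M → M} {p : M}

/-- Koenigs linearization of a contracting holomorphic action of `ℂ` -/
theorem koenigs (h : IsHolCFlow E ψ) (hp : ∀ ζ, ψ ζ p = p) {T : ℝ} (hT : 0 < T) {a b : ℝ}
    (hb : b < 1) (hab : b ^ 2 < a) (hDa : ∀ v, a * ‖v‖ ≤ ‖Dm E ψ p T v‖)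
    (hDb : ∀ v, ‖Dm E ψ p T v‖ ≤ b * ‖v‖)
    (hbas : ∀ x, Tendsto (fun t : ℝ => ψ t x) atTop (𝓝 p)) :
    ∃ F : M ≃ₘ^1⟮𝓘(ℂ, E), 𝓘(ℂ, E)⟯ E, F p = 0 ∧
      (∀ v : E, (mfderiv 𝓘(ℂ, E) 𝓘(ℂ, E) F p : E → E) v = v) ∧
      ∀ (ζ : ℂ) (x : M), F (ψ ζ x) = Dm E ψ p ζ (F x) := by
  have hCE : CompleteSpace E := FiniteDimensional.complete ℂ E
  obtain ⟨F, h0, h1, hFT⟩ := koenigs_T h hp hT hb hab hDa hDb hbas
  refine ⟨F, h0, fun v => by rw [h1.mfderiv]; rfl, fun ζ x => ?_⟩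
  set K : E → E := fun v => Dm E ψ p (-ζ) (F (ψ ζ (F.symm v))) with hK
  have hF0 : F.symm 0 = p := by rw [← h0, F.symm_apply_apply]
  have hsymT : ∀ v, F.symm (Dm E ψ p T v) = ψ T (F.symm v) := by
    intro v
    have h2 : F (ψ T (F.symm v)) = Dm E ψ p T v := by rw [hFT, F.apply_symm_apply]
    rw [← h2, F.symm_apply_apply]
  have hKD : ∀ v, K (Dm E ψ p T v) = Dm E ψ p T (K v) := by
    intro v
    simp only [hK]
    rw [hsymT, ← h.add, add_comm ζ, h.add, hFT, ← Dm_add_apply h hp, ← Dm_add_apply h hp,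
      add_comm]
  have hK0 : K 0 = 0 := by
    simp only [hK]
    rw [hF0, hp, h0, map_zero]
  have hKm : ContMDiff 𝓘(ℂ, E) 𝓘(ℂ, E) 1 K :=
    ((Dm E ψ p (-ζ)).contDiff.contMDiff).comp (F.contMDiff.comp ((cflow_smooth h ζ).comp
      F.symm.contMDiff))
  have hKs : ContDiffAt ℂ 2 K 0 := by
    have h2 : Differentiable ℂ K := (contMDiff_iff_contDiff.1 hKm).differentiable (by simp)
    have h3 := contDiffOn_of_differentiableOn_complex isOpen_univ (h2.differentiableOn (s := univ))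
    exact (contDiffOn_univ.1 h3).contDiffAt.of_le (WithTop.coe_le_coe.2 le_top)
  have hK1 : HasFDerivAt K (ContinuousLinearMap.id ℂ E) 0 := by
    let A : E →L[ℂ] E := mfderiv 𝓘(ℂ, E) 𝓘(ℂ, E) F.symm (0 : E)
    have e1 : HasMFDerivAt 𝓘(ℂ, E) 𝓘(ℂ, E) F.symm (0 : E) A :=
      ((F.symm.contMDiff.mdifferentiable (by simp)) _).hasMFDerivAt
    have e2 : ∀ y : M, y = p → HasMFDerivAt 𝓘(ℂ, E) 𝓘(ℂ, E) F y
        (ContinuousLinearMap.id ℂ E : E →L[ℂ] E) := by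
      rintro _ rfl
      exact h1
    have e3 : HasMFDerivAt 𝓘(ℂ, E) 𝓘(ℂ, E) (F ∘ F.symm) (0 : E)
        ((ContinuousLinearMap.id ℂ E : E →L[ℂ] E).comp A) := (e2 _ hF0).comp _ e1
    have e4 : (F ∘ F.symm : E → E) = id := funext fun x => F.apply_symm_apply x
    rw [e4] at e3
    have e5 : ((ContinuousLinearMap.id ℂ E : E →L[ℂ] E).comp A) = ContinuousLinearMap.id ℂ E :=
      hasMFDerivAt_unique e3 (hasMFDerivAt_id _)
    have e5' : A = ContinuousLinearMap.id ℂ E := e5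
    have e6 : ∀ y : M, y = p → HasMFDerivAt 𝓘(ℂ, E) 𝓘(ℂ, E) (ψ ζ) y (Dm E ψ p ζ) := by
      rintro _ rfl
      exact hasMFDerivAt_Dm h ζ
    have e7 : HasMFDerivAt 𝓘(ℂ, E) 𝓘(ℂ, E) (ψ ζ ∘ F.symm) (0 : E) ((Dm E ψ p ζ).comp A) :=
      (e6 _ hF0).comp _ e1
    have e8 : HasMFDerivAt 𝓘(ℂ, E) 𝓘(ℂ, E) (F ∘ (ψ ζ ∘ F.symm)) (0 : E)
        ((ContinuousLinearMap.id ℂ E : E →L[ℂ] E).comp ((Dm E ψ p ζ).comp A)) :=
      (e2 _ (by simp only [Function.comp]; rw [hF0, hp])).comp _ e7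
    have e9 : HasMFDerivAt 𝓘(ℂ, E) 𝓘(ℂ, E) (fun v : E => Dm E ψ p (-ζ) v)
        ((F ∘ (ψ ζ ∘ F.symm)) (0 : E)) (Dm E ψ p (-ζ)) :=
      (Dm E ψ p (-ζ)).hasFDerivAt.hasMFDerivAt
    have e10 : HasMFDerivAt 𝓘(ℂ, E) 𝓘(ℂ, E) K (0 : E) ((Dm E ψ p (-ζ)).comp
        ((ContinuousLinearMap.id ℂ E : E →L[ℂ] E).comp ((Dm E ψ p ζ).comp A))) := e9.comp _ e8
    have e11 : ∀ A' : E →L[ℂ] E, A' = ContinuousLinearMap.id ℂ E → (Dm E ψ p (-ζ)).comp
        ((ContinuousLinearMap.id ℂ E : E →L[ℂ] E).comp ((Dm E ψ p ζ).comp A')) =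
        ContinuousLinearMap.id ℂ E := by
      rintro _ rfl
      rw [ContinuousLinearMap.id_comp, ContinuousLinearMap.comp_id, ← Dm_add h hp,
        neg_add_cancel, Dm_zero h]
    have e12 : HasFDerivAt K ((Dm E ψ p (-ζ)).comp
        ((ContinuousLinearMap.id ℂ E : E →L[ℂ] E).comp ((Dm E ψ p ζ).comp A))) 0 :=
      e10.hasFDerivAt
    rw [e11 A e5'] at e12
    exact e12
  have hev := unip (G := K) (R := Dm E ψ p T) (D := Dm E ψ p T) (a := a) (b := max b 0)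
    ((sq_nonneg b).trans_lt hab) (le_max_right _ _) (max_lt hb one_pos) (by
      rcases le_total b 0 with hb0 | hb0
      · rw [max_eq_right hb0]; simpa using (sq_nonneg b).trans_lt hab
      · rw [max_eq_left hb0]; exact hab) hDa
    (fun v => (hDb v).trans (mul_le_mul_of_nonneg_right (le_max_left _ _) (norm_nonneg _)))
    hKs hK0 hK1 (map_zero _) (Dm E ψ p T).hasStrictFDerivAt
    (Filter.Eventually.of_forall fun u => hKD u)
  have hKk : ∀ (k : ℕ) v, K (Dm E ψ p (k * T) v) = Dm E ψ p (k * T) (K v) := by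
    intro k v
    induction k with
    | zero => simp [Dm_zero h]
    | succ k ih =>
      have h2 : ((k + 1 : ℕ) : ℂ) * (T : ℂ) = T + k * T := by push_cast; ring
      rw [h2, Dm_add_apply h hp, hKD, ih, Dm_add_apply h hp]
  have hKid : K (F x) = F x := by
    obtain ⟨k, hk⟩ := ((tendsto_Dm h hp hb hDb (F x)).eventually hev).exists
    rw [hKk] at hk
    have h2 := congrArg (Dm E ψ p (-(k * T))) hk
    rwa [Dm_neg_apply h hp, Dm_neg_apply h hp] at h2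
  have h2 := congrArg (Dm E ψ p ζ) hKid
  simp only [hK] at h2
  rw [Dm_apply_neg h hp, F.symm_apply_apply] at h2
  exact h2

variable (E) in
/-- the differential of `f` at a fixed point `p`, as a linear map of `E = T_p M` -/
def dm (f : M → M) (p : M) : E →L[ℂ] E := mfderiv 𝓘(ℂ, E) 𝓘(ℂ, E) f p

variable (E) in
/-- the semigroup `ρ` contracts `M` to the point `p`: `ρ t x` tends to `p` for every `x`, and for
some time `T > 0` the differential of `ρ T` at `p` satisfies `a |v| ≤ |d(ρ T) v| ≤ b |v|` with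
`b < 1` and `b² < a` (for instance a homothety with ratio `b < 1`) -/
def IsContracting (ρ : ℝ → M → M) (p : M) : Prop :=
  (∀ x, Tendsto (fun t : ℝ => ρ t x) atTop (𝓝 p)) ∧
  ∃ T a b : ℝ, 0 < T ∧ b < 1 ∧ b ^ 2 < a ∧
    ∀ v : E, a * ‖v‖ ≤ ‖dm E (ρ T) p v‖ ∧ ‖dm E (ρ T) p v‖ ≤ b * ‖v‖

/-- Contracting semigroups which extend to `ℂ`. -/
theorem main_contr (hψ : IsHolCFlow E ψ) (he : ∀ t : ℝ, 0 ≤ t → ∀ x, ψ t x = ρ t x)
    (hp : IsContracting E ρ p) :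
    ∃ F : M ≃ₘ^1⟮𝓘(ℂ, E), 𝓘(ℂ, E)⟯ E, F p = 0 ∧
      (∀ v : E, (mfderiv 𝓘(ℂ, E) 𝓘(ℂ, E) F p : E → E) v = v) ∧
      ∀ t : ℝ, 0 ≤ t → ∀ x : M, F (ρ t x) =
        (mfderiv 𝓘(ℂ, E) 𝓘(ℂ, E) (ρ t) p : E → E) (F x) := by
  obtain ⟨hlim, T, a, b, hT, hb, hab, hv⟩ := hp
  have heq : ∀ t : ℝ, 0 ≤ t → ψ t = ρ t := fun t ht => funext fun x => he t ht x
  have hlimψ : ∀ x, Tendsto (fun t : ℝ => ψ t x) atTop (𝓝 p) := by
    intro x
    refine (hlim x).congr' ?_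
    filter_upwards [eventually_ge_atTop (0:ℝ)] with t ht
    exact (he t ht x).symm
  have hfix : ∀ s : ℝ, 0 ≤ s → ψ s p = p := by
    intro s _
    have h1 : Tendsto (fun t : ℝ => ψ s (ψ t p)) atTop (𝓝 (ψ s p)) :=
      ((cflow_mdiff hψ s).continuous.tendsto p).comp (hlimψ p)
    have h2 : Tendsto (fun t : ℝ => ψ s (ψ t p)) atTop (𝓝 p) := by
      have h3 := (hlimψ p).comp (tendsto_atTop_add_const_left atTop s tendsto_id)
      refine h3.congr fun t => ?_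
      simp only [Function.comp, id, ofReal_add, hψ.add]
    exact tendsto_nhds_unique h1 h2
  have hfixψ := fixed_pos hψ hfix
  have hDT : ∀ t : ℝ, 0 ≤ t → Dm E ψ p t = dm E (ρ t) p := by
    intro t ht
    unfold Dm dm
    rw [heq t ht]
  obtain ⟨F, h0, h1, h2⟩ := koenigs hψ hfixψ hT hb hab
    (fun v => by rw [hDT T hT.le]; exact (hv v).1) (fun v => by rw [hDT T hT.le]; exact (hv v).2)
    hlimψ
  refine ⟨F, h0, h1, fun t ht x => ?_⟩
  rw [← he t ht, h2, hDT t ht]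
  rfl

/-- homotheties -/
theorem thom_contr (F : M ≃ₘ^1⟮𝓘(ℂ, E), 𝓘(ℂ, E)⟯ E) :
    (∀ x, Tendsto (fun t : ℝ => thom F t x) atTop (𝓝 (F.symm 0))) ∧
      ∀ t : ℝ, 0 ≤ t → ∀ v : E, (mfderiv 𝓘(ℂ, E) 𝓘(ℂ, E) (thom F t) (F.symm 0) : E → E) v =
        exp (-(t : ℂ)) • v := by
  constructor
  · intro x
    have h1 : Tendsto (fun t : ℝ => exp (-(t : ℂ)) • F x) atTop (𝓝 0) := by
      have h2 : Tendsto (fun t : ℝ => exp (-(t : ℂ))) atTop (𝓝 0) := by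
        rw [tendsto_zero_iff_norm_tendsto_zero]
        have h3 : ∀ t : ℝ, ‖exp (-(t : ℂ))‖ = Real.exp (-t) := by
          intro t; rw [norm_exp]; simp
        simp only [h3]
        exact Real.tendsto_exp_neg_atTop_nhds_zero
      have h3 := h2.smul_const (F x)
      rwa [zero_smul] at h3
    exact (F.symm.continuous.tendsto 0).comp h1
  · intro t ht v
    obtain ⟨-, h2⟩ := thom_attr F
    let T1 : E →L[ℂ] E := mfderiv 𝓘(ℂ, E) 𝓘(ℂ, E) F (F.symm 0)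
    let T2 : E →L[ℂ] E := mfderiv 𝓘(ℂ, E) 𝓘(ℂ, E) F.symm 0
    have h1 : HasMFDerivAt 𝓘(ℂ, E) 𝓘(ℂ, E) F (F.symm 0) T1 :=
      ((F.contMDiff.mdifferentiable (by simp)) _).hasMFDerivAt
    have h2 : ∀ y : E, y = 0 → HasMFDerivAt 𝓘(ℂ, E) 𝓘(ℂ, E) F.symm y T2 := by
      rintro _ rfl
      exact ((F.symm.contMDiff.mdifferentiable (by simp)) _).hasMFDerivAt
    have hF0 : F (F.symm 0) = 0 := F.apply_symm_apply 0
    have h3 : HasMFDerivAt 𝓘(ℂ, E) 𝓘(ℂ, E) (F.symm ∘ F) (F.symm 0) (T2.comp T1) :=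
      (h2 _ hF0).comp _ h1
    have h4 : (F.symm ∘ F : M → M) = id := funext fun x => F.symm_apply_apply x
    rw [h4] at h3
    have h5 : (T2.comp T1 : E →L[ℂ] E) = ContinuousLinearMap.id ℂ E :=
      hasMFDerivAt_unique h3 (hasMFDerivAt_id _)
    set a : ℂ := exp (-(t : ℂ)) with ha
    have h6 : HasMFDerivAt 𝓘(ℂ, E) 𝓘(ℂ, E) (fun z : E => a • z) (F (F.symm 0))
        (a • ContinuousLinearMap.id ℂ E) :=
      ((hasFDerivAt_id (𝕜 := ℂ) (F (F.symm 0))).const_smul a).hasMFDerivAt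
    have h7 : HasMFDerivAt 𝓘(ℂ, E) 𝓘(ℂ, E) (F.symm ∘ (fun z : E => a • z) ∘ F) (F.symm 0)
        (T2.comp ((a • ContinuousLinearMap.id ℂ E).comp T1)) :=
      (h2 _ (by simp [hF0])).comp _ (h6.comp _ h1)
    have h8 : (mfderiv 𝓘(ℂ, E) 𝓘(ℂ, E) (thom F t) (F.symm 0) : E →L[ℂ] E) =
        T2.comp ((a • ContinuousLinearMap.id ℂ E).comp T1) := h7.mfderiv
    have h9 : (mfderiv 𝓘(ℂ, E) 𝓘(ℂ, E) (thom F t) (F.symm 0) : E →L[ℂ] E) v =
        a • (T2.comp T1) v := by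
      rw [h8]
      change T2 (a • T1 v) = a • T2 (T1 v)
      exact map_smul T2 _ _
    rw [h5] at h9
    exact h9

/-- `ℂⁿ` has a contracting semigroup. -/
theorem thom_isContracting (F : M ≃ₘ^1⟮𝓘(ℂ, E), 𝓘(ℂ, E)⟯ E) :
    IsContracting E (thom F) (F.symm 0) := by
  obtain ⟨h1, h2⟩ := thom_contr F
  have h3 : ∀ v : E, ‖dm E (thom F 1) (F.symm 0) v‖ = Real.exp (-1) * ‖v‖ := by
    intro v
    have h4 : dm E (thom F 1) (F.symm 0) v = exp (-((1 : ℝ) : ℂ)) • v := h2 1 zero_le_one v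
    rw [h4, norm_smul, norm_exp]
    simp
  refine ⟨h1, 1, Real.exp (-1), Real.exp (-1), one_pos, ?_, ?_, fun v => ⟨(h3 v).ge, (h3 v).le⟩⟩
  · rw [Real.exp_lt_one_iff]; norm_num
  · rw [← Real.exp_nat_mul, Real.exp_lt_exp]; norm_num

/-- contracting semigroups characterize `ℂⁿ` -/
theorem iff_contr (hExt : HasSExt E M) :
    Nonempty (M ≃ₘ^1⟮𝓘(ℂ, E), 𝓘(ℂ, E)⟯ E) ↔
      ∃ ρ : ℝ → M → M, H567.IsHolSemigroup E ρ ∧ ∃ p : M, IsContracting E ρ p := by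
  constructor
  · rintro ⟨F⟩
    exact ⟨thom F, (thom_semi F).isHolSemigroup, F.symm 0, thom_isContracting F⟩
  · rintro ⟨ρ, hρ, p, hp⟩
    obtain ⟨ψ, hψ, he⟩ := hExt ρ hρ
    obtain ⟨F, -⟩ := main_contr hψ he hp
    exact ⟨F⟩

end Vale.Agent.P253.S445
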