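import Vale.Agent.P253.S445.Koe
import Mathlib.LinearAlgebra.Eigenspace.Triangularizable

/-!
P253: generalized eigenspaces of an algebra endomorphism are multiplicative.
-/

open Set Finset

noncomputable section

namespace Vale.Agent.P253.S445

section alg

variable {Y : Type*} [CommRing Y] [Algebra ℂ Y]

/-- generalized eigenspaces of an endomorphism of an algebra -/
def VV (φ : Y →ₐ[ℂ] Y) (μ : ℂ) : Submodule ℂ Y :=
  Module.End.maxGenEigenspace (φ.toLinearMap : Module.End ℂ Y) μ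

theorem mem_VV {φ : Y →ₐ[ℂ] Y} {μ : ℂ} {x : Y} :
    x ∈ VV φ μ ↔ ∃ k : ℕ, (((φ.toLinearMap : Module.End ℂ Y) - μ • 1) ^ k) x = 0 :=
  Module.End.mem_maxGenEigenspace _ _ _

theorem VV_mul_aux (φ : Y →ₐ[ℂ] Y) (μ ν : ℂ) : ∀ (n a b : ℕ) (x y : Y), a + b = n →
    (((φ.toLinearMap : Module.End ℂ Y) - μ • 1) ^ a) x = 0 →
    (((φ.toLinearMap : Module.End ℂ Y) - ν • 1) ^ b) y = 0 →
    (((φ.toLinearMap : Module.End ℂ Y) - (μ * ν) • 1) ^ n) (x * y) = 0 := by
  intro n
  induction n with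
  | zero =>
    intro a b x y hab hx hy
    obtain ⟨rfl, rfl⟩ : a = 0 ∧ b = 0 := by omega
    have hx' : x = 0 := by simpa using hx
    simp [hx']
  | succ n ih =>
    intro a b x y hab hx hy
    rcases a with _ | a
    · have hx' : x = 0 := by simpa using hx
      simp [hx']
    rcases b with _ | b
    · have hy' : y = 0 := by simpa using hy
      simp [hy']
    rw [pow_succ, Module.End.mul_apply]
    have h1 : ((φ.toLinearMap : Module.End ℂ Y) - (μ * ν) • 1) (x * y) =
        (((φ.toLinearMap : Module.End ℂ Y) - μ • 1) x) * (φ y) +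
          μ • (x * (((φ.toLinearMap : Module.End ℂ Y) - ν • 1) y)) := by
      simp only [LinearMap.sub_apply, LinearMap.smul_apply, Module.End.one_apply,
        AlgHom.toLinearMap_apply, map_mul]
      rw [sub_mul, smul_mul_assoc, mul_sub, mul_smul_comm, smul_sub, smul_smul,
        mul_smul]
      simp only [smul_smul]
      abel
    rw [h1, map_add, map_smul]
    have hφy : (((φ.toLinearMap : Module.End ℂ Y) - ν • 1) ^ (b + 1)) (φ y) = 0 := by
      have hcomm : Commute (((φ.toLinearMap : Module.End ℂ Y) - ν • 1) ^ (b + 1))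
          (φ.toLinearMap : Module.End ℂ Y) := by
        apply Commute.pow_left
        exact (Commute.refl _).sub_left ((Commute.one_left _).smul_left ν)
      have h2 := congrArg (fun T : Module.End ℂ Y => T y) hcomm.eq
      simp only [Module.End.mul_apply] at h2
      have h3 : (φ.toLinearMap : Module.End ℂ Y) y = φ y := rfl
      rw [h3] at h2
      rw [h2, hy, map_zero]
    rw [ih a (b + 1) _ _ (by omega) (by
        rw [pow_succ, Module.End.mul_apply] at hx
        exact hx) hφy,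
      ih (a + 1) b _ _ (by omega) hx (by
        rw [pow_succ, Module.End.mul_apply] at hy
        exact hy), smul_zero, add_zero]

theorem VV_mul {φ : Y →ₐ[ℂ] Y} {μ ν : ℂ} {x y : Y} (hx : x ∈ VV φ μ) (hy : y ∈ VV φ ν) :
    x * y ∈ VV φ (μ * ν) := by
  rw [mem_VV] at *
  obtain ⟨a, ha⟩ := hx
  obtain ⟨b, hb⟩ := hy
  exact ⟨a + b, VV_mul_aux φ μ ν _ a b x y rfl ha hb⟩

theorem VV_one (φ : Y →ₐ[ℂ] Y) : (1 : Y) ∈ VV φ 1 := by
  rw [mem_VV]
  exact ⟨1, by simp⟩

theorem VV_prod {φ : Y →ₐ[ℂ] Y} {κ : Type*} (s : Finset κ) {μ : κ → ℂ} {x : κ → Y}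
    (h : ∀ i, x i ∈ VV φ (μ i)) : ∏ i ∈ s, x i ∈ VV φ (∏ i ∈ s, μ i) := by
  classical
  induction s using Finset.induction_on with
  | empty => simpa using VV_one φ
  | insert a s ha ih =>
    rw [Finset.prod_insert ha, Finset.prod_insert ha]
    exact VV_mul (h a) ih

theorem VV_map {φ : Y →ₐ[ℂ] Y} {μ : ℂ} {x : Y} (hx : x ∈ VV φ μ) : φ x ∈ VV φ μ := by
  rw [mem_VV] at *
  obtain ⟨k, hk⟩ := hx
  refine ⟨k, ?_⟩
  have hcomm : Commute (((φ.toLinearMap : Module.End ℂ Y) - μ • 1) ^ k)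
      (φ.toLinearMap : Module.End ℂ Y) := by
    apply Commute.pow_left
    exact (Commute.refl _).sub_left ((Commute.one_left _).smul_left μ)
  have h2 := congrArg (fun T : Module.End ℂ Y => T x) hcomm.eq
  simp only [Module.End.mul_apply] at h2
  have h3 : (φ.toLinearMap : Module.End ℂ Y) x = φ x := rfl
  rw [h3] at h2
  rw [h2, hk, map_zero]

/-- selection of the terms with the right eigenvalue -/
theorem VV_select {φ : Y →ₐ[ℂ] Y} {κ : Type*} [Fintype κ] {μ : ℂ} {ν : κ → ℂ}
    {z : Y} {m : κ → Y} {c : κ → ℂ} (hz : z ∈ VV φ μ) (hm : ∀ r, m r ∈ VV φ (ν r))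
    (h : z = ∑ r, c r • m r) [DecidablePred fun r => ν r = μ] :
    z = ∑ r with ν r = μ, c r • m r := by
  have hind : iSupIndep fun μ => VV φ μ :=
    Module.End.independent_maxGenEigenspace (φ.toLinearMap : Module.End ℂ Y)
  have h1 : z - ∑ r with ν r = μ, c r • m r = ∑ r with ν r ≠ μ, c r • m r := by
    rw [sub_eq_iff_eq_add, h, add_comm]
    exact (Finset.sum_filter_add_sum_filter_not _ _ _).symm
  have h2 : z - ∑ r with ν r = μ, c r • m r ∈ VV φ μ := by
    refine Submodule.sub_mem _ hz (Submodule.sum_mem _ fun r hr => ?_)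
    rw [Finset.mem_filter] at hr
    exact Submodule.smul_mem _ _ (hr.2 ▸ hm r)
  have h3 : z - ∑ r with ν r = μ, c r • m r ∈ ⨆ (j) (_ : j ≠ μ), VV φ j := by
    rw [h1]
    refine Submodule.sum_mem _ fun r hr => ?_
    rw [Finset.mem_filter] at hr
    refine Submodule.smul_mem _ _ ?_
    exact Submodule.mem_iSup_of_mem (ν r) (Submodule.mem_iSup_of_mem hr.2 (hm r))
  have h4 := (hind μ)
  rw [Submodule.disjoint_def] at h4
  exact sub_eq_zero.1 (h4 _ h2 h3)

end alg

end Vale.Agent.P253.S445
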