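import Vale.Agent.P253.S445.Nf1
import Vale.Agent.P097.H407.Hol

/-!
P253: Taylor expansion in holomorphic coordinates.
-/

open scoped ContDiff Topology
open Set Metric Filter Asymptotics

set_option linter.unusedSectionVars false

noncomputable section

namespace Vale.Agent.P253.S445

open Vale.Agent.P253.Mfd

variable {E : Type*} [NormedAddCommGroup E] [NormedSpace ℂ E] [FiniteDimensional ℂ E]
  {ι : Type*} [Fintype ι]

/-- index set of the monomials of degree `≤ N` -/
abbrev MonI (ι : Type*) (N : ℕ) := (j : Fin (N + 1)) × (Fin j → ι)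

/-- a function which is differentiable near a point is analytic there -/
theorem analyticAt_of_ev {F F' : Type*} [NormedAddCommGroup F] [NormedSpace ℂ F]
    [FiniteDimensional ℂ F] [NormedAddCommGroup F'] [NormedSpace ℂ F'] [CompleteSpace F']
    {f : F → F'} {x : F} (hf : ∀ᶠ z in 𝓝 x, DifferentiableAt ℂ f z) : AnalyticAt ℂ f x := by
  obtain ⟨U, hU, hUo, hxU⟩ := _root_.eventually_nhds_iff.1 hf
  exact Vale.Agent.P097.Hol.analyticAt_of_differentiableOn hUo
    (fun z hz => (hU z hz).differentiableWithinAt) hxU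

/-- expansion of a homogeneous polynomial -/
theorem expand_multilinear {k : ℕ} (p : ContinuousMultilinearMap ℂ (fun _ : Fin k => (ι → ℂ)) ℂ)
    [DecidableEq ι] (w : ι → ℂ) :
    p (fun _ => w) = ∑ r : Fin k → ι, (p fun t => Pi.single (r t) 1) * ∏ t, w (r t) := by
  have h1 : (fun _ : Fin k => w) = fun _ : Fin k => ∑ i : ι, w i • (Pi.single i 1 : ι → ℂ) := by
    funext t
    exact pi_eq_sum_univ' w
  rw [h1, ContinuousMultilinearMap.map_sum]
  refine Finset.sum_congr rfl fun r _ => ?_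
  rw [ContinuousMultilinearMap.map_smul_univ, smul_eq_mul, mul_comm]

/-- Taylor expansion in coordinates -/
theorem taylor_coord [DecidableEq ι] {y : E → (ι → ℂ)} (hy0 : y 0 = 0)
    (hyd : ∀ᶠ z in 𝓝 (0:E), DifferentiableAt ℂ y z) (Y₀ : E ≃L[ℂ] (ι → ℂ))
    (hY : HasFDerivAt y (Y₀ : E →L[ℂ] (ι → ℂ)) 0) {f : E → ℂ}
    (hf : ∀ᶠ z in 𝓝 (0:E), DifferentiableAt ℂ f z) (N : ℕ) :
    ∃ c : MonI ι N → ℂ, (fun z => f z - ∑ r : MonI ι N, c r * ∏ t, y z (r.2 t)) =O[𝓝 0]
      fun z : E => ‖z‖ ^ (N + 1) := by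
  have hCE : CompleteSpace E := FiniteDimensional.complete ℂ E
  have hyc : ContDiffAt ℂ 1 y 0 := (analyticAt_of_ev hyd).contDiffAt
  set σ := hyc.localInverse hY one_ne_zero with hσ
  have hσc : ContDiffAt ℂ 1 σ 0 := by
    have h1 := hyc.to_localInverse hY one_ne_zero
    rwa [hy0] at h1
  have hσ0 : σ 0 = 0 := by
    have h1 := hyc.localInverse_apply_image hY one_ne_zero
    rwa [hy0] at h1
  have hσy : ∀ᶠ z in 𝓝 (0:E), σ (y z) = z :=
    (hyc.hasStrictFDerivAt' hY one_ne_zero).eventually_left_inverse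
  have hσd : ∀ᶠ w in 𝓝 (0 : ι → ℂ), DifferentiableAt ℂ σ w := by
    filter_upwards [hσc.eventually (by simp)] with w hw
    exact hw.differentiableAt (by simp)
  have hfσ : ∀ᶠ w in 𝓝 (0 : ι → ℂ), DifferentiableAt ℂ (f ∘ σ) w := by
    have h1 : Tendsto σ (𝓝 0) (𝓝 0) := by
      have := hσc.continuousAt.tendsto
      rwa [hσ0] at this
    filter_upwards [hσd, h1.eventually hf] with w h2 h3
    exact h3.comp w h2
  obtain ⟨p, hp⟩ := analyticAt_of_ev hfσ
  have h2 := hp.isBigO_sub_partialSum_pow (N + 1)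
  have hyt : Tendsto y (𝓝 0) (𝓝 0) := by
    have := hY.continuousAt.tendsto
    rwa [hy0] at this
  have h3 := h2.comp_tendsto hyt
  have hyO : (fun z => y z) =O[𝓝 0] fun z : E => z := by
    have h4 := hY.isBigO_sub
    simpa [hy0] using h4
  have h5 : ((fun w : ι → ℂ => ‖w‖ ^ (N + 1)) ∘ y) =O[𝓝 0] fun z : E => ‖z‖ ^ (N + 1) :=
    (hyO.norm_left.norm_right).pow (N + 1)
  refine ⟨fun r => p r.1 fun t => Pi.single (r.2 t) 1, ?_⟩
  refine (h3.trans h5).congr' ?_ EventuallyEq.rfl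
  filter_upwards [hσy] with z hz
  simp only [Function.comp, zero_add, hz]
  congr 1
  rw [FormalMultilinearSeries.partialSum, Finset.sum_range]
  rw [Fintype.sum_sigma]
  refine Finset.sum_congr rfl fun j _ => ?_
  exact expand_multilinear (p j) (y z)

end Vale.Agent.P253.S445
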