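import Vale.Agent.P253.S445.Nf2

/-!
P253: the algebra of functions holomorphic near `0`, and the composition operator.
-/

open scoped ContDiff Topology
open Set Metric Filter Asymptotics

set_option linter.unusedSectionVars false

noncomputable section

namespace Vale.Agent.P253.S445

variable {E : Type*} [NormedAddCommGroup E] [NormedSpace ℂ E]

variable (E) in
/-- functions which are holomorphic near `0` -/
def HolA : Subalgebra ℂ (E → ℂ) where
  carrier := {f | ∀ᶠ z in 𝓝 (0:E), DifferentiableAt ℂ f z}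
  mul_mem' := fun {f g} hf hg => by
    filter_upwards [hf, hg] with z h1 h2
    exact h1.mul h2
  add_mem' := fun {f g} hf hg => by
    filter_upwards [hf, hg] with z h1 h2
    exact h1.add h2
  algebraMap_mem' := fun c => Eventually.of_forall fun z => differentiableAt_const c

theorem hdiff0 (f : HolA E) : DifferentiableAt ℂ f.1 0 := Filter.Eventually.self_of_nhds f.2

/-- vanishing to the order `k` at `0` -/
def IsOrd (k : ℕ) (f : E → ℂ) : Prop := f =O[𝓝 0] fun z : E => ‖z‖ ^ k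

variable (E) in
/-- functions which vanish to the order `k` at `0` -/
def OrdI (k : ℕ) : Ideal (HolA E) where
  carrier := {f | IsOrd k f.1}
  add_mem' := fun {f g} hf hg => IsBigO.add hf hg
  zero_mem' := isBigO_zero _ _
  smul_mem' := fun a f hf => by
    have h1 : a.1 =O[𝓝 0] fun _ : E => (1:ℝ) := (hdiff0 a).continuousAt.isBigO_one ℝ
    have h2 := h1.mul hf
    simp only [one_mul] at h2
    exact h2

theorem IsOrd.zero {k : ℕ} (hk : 1 ≤ k) {f : E → ℂ} (hf : IsOrd k f) : f 0 = 0 := by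
  have h1 := Asymptotics.IsBigO.eq_zero_imp hf
  have h2 := h1.self_of_nhds
  apply h2
  simp; omega

theorem IsOrd.fderiv {k : ℕ} (hk : 2 ≤ k) {f : E → ℂ} (hf : IsOrd k f) :
    fderiv ℂ f 0 = 0 := by
  have h0 := hf.zero (by omega)
  have h1 : f =o[𝓝 0] fun z : E => z := by
    refine IsBigO.trans_isLittleO hf ?_
    have h2 : (fun z : E => ‖z‖ ^ k) =o[𝓝 0] fun z : E => ‖z‖ ^ 1 :=
      (isLittleO_pow_pow (𝕜 := ℝ) (by omega : 1 < k)).comp_tendsto (by
        have : Tendsto (fun z : E => ‖z‖) (𝓝 0) (𝓝 ‖(0:E)‖) := continuous_norm.tendsto 0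
        simpa using this)
    simp only [pow_one] at h2
    exact h2.of_norm_right
  have h2 : HasFDerivAt f (0 : E →L[ℂ] ℂ) 0 := by
    rw [hasFDerivAt_iff_isLittleO]
    simpa [h0] using h1
  exact h2.fderiv

theorem tendsto_R {R : E → E} (hR : ∀ᶠ z in 𝓝 (0:E), DifferentiableAt ℂ R z) (hR0 : R 0 = 0) :
    Tendsto R (𝓝 0) (𝓝 0) := by
  have := hR.self_of_nhds.continuousAt.tendsto
  rwa [hR0] at this

/-- the composition operator -/
def Cmp (R : E → E) (hR : ∀ᶠ z in 𝓝 (0:E), DifferentiableAt ℂ R z) (hR0 : R 0 = 0) :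
    HolA E →ₐ[ℂ] HolA E where
  toFun f := ⟨fun z => f.1 (R z), by
    have h2 := (tendsto_R hR hR0).eventually f.2
    change ∀ᶠ z in 𝓝 (0:E), DifferentiableAt ℂ (fun z => f.1 (R z)) z
    filter_upwards [hR, h2] with z h3 h4
    exact DifferentiableAt.comp z (g := f.1) h4 h3⟩
  map_one' := rfl
  map_mul' _ _ := rfl
  map_zero' := rfl
  map_add' _ _ := rfl
  commutes' _ := rfl

variable {R : E → E}

theorem IsOrd.comp {k : ℕ} {f : E → ℂ} (hf : IsOrd k f)
    (hR : ∀ᶠ z in 𝓝 (0:E), DifferentiableAt ℂ R z) (hR0 : R 0 = 0) :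
    IsOrd k (fun z => f (R z)) := by
  have h2 := IsBigO.comp_tendsto hf (tendsto_R hR hR0)
  have h3 : (fun z => R z) =O[𝓝 0] fun z : E => z := by
    have h4 := hR.self_of_nhds.hasFDerivAt.isBigO_sub
    simpa [hR0] using h4
  have h4 : ((fun z : E => ‖z‖ ^ k) ∘ R) =O[𝓝 0] fun z : E => ‖z‖ ^ k :=
    (h3.norm_left.norm_right).pow k
  exact h2.trans h4

/-- evaluation -/
def evA (z : E) : HolA E →ₐ[ℂ] ℂ := (Pi.evalAlgHom ℂ (fun _ : E => ℂ) z).comp (HolA E).val

theorem evA_apply (z : E) (f : HolA E) : evA z f = f.1 z := rfl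

/-- the differential at `0` -/
def ddA : HolA E →ₗ[ℂ] (E →L[ℂ] ℂ) where
  toFun f := fderiv ℂ f.1 0
  map_add' f g := by
    change fderiv ℂ (f.1 + g.1) 0 = _
    exact fderiv_add (hdiff0 f) (hdiff0 g)
  map_smul' c f := by
    change fderiv ℂ (c • f.1) 0 = _
    exact fderiv_const_smul (hdiff0 f) c

theorem ddA_apply (f : HolA E) : ddA f = fderiv ℂ f.1 0 := rfl

/-- linear functionals -/
def linA (ℓ : E →L[ℂ] ℂ) : HolA E := ⟨ℓ, Eventually.of_forall fun _ => ℓ.differentiableAt⟩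

theorem ddA_linA (ℓ : E →L[ℂ] ℂ) : ddA (linA ℓ) = ℓ := ℓ.fderiv

theorem ddA_Cmp (hR : ∀ᶠ z in 𝓝 (0:E), DifferentiableAt ℂ R z) (hR0 : R 0 = 0)
    {D : E →L[ℂ] E} (hD : HasFDerivAt R D 0) (g : HolA E) :
    ddA (Cmp R hR hR0 g) = (ddA g).comp D := by
  have h4 : HasFDerivAt g.1 (ddA g) (R 0) := by
    rw [hR0]
    exact (hdiff0 g).hasFDerivAt
  exact (HasFDerivAt.comp (0:E) (g := g.1) h4 hD).fderiv

universe u

/-- a model of the algebra of jets of order `N` -/
theorem exists_jet (E : Type u) [NormedAddCommGroup E] [NormedSpace ℂ E] {R : E → E}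
    (hR : ∀ᶠ z in 𝓝 (0:E), DifferentiableAt ℂ R z) (hR0 : R 0 = 0) (N : ℕ) :
    ∃ (Y : Type u) (_ : CommRing Y) (_ : Algebra ℂ Y) (mk : HolA E →ₐ[ℂ] Y) (φ : Y →ₐ[ℂ] Y),
      Function.Surjective mk ∧ (∀ f, mk f = 0 ↔ IsOrd (N + 1) f.1) ∧
      ∀ f, φ (mk f) = mk (Cmp R hR hR0 f) := by
  refine ⟨HolA E ⧸ OrdI E (N + 1), inferInstance, inferInstance,
    Ideal.Quotient.mkₐ ℂ (OrdI E (N + 1)),
    Ideal.quotientMapₐ _ (Cmp R hR hR0) (fun f hf => ?_), Ideal.Quotient.mk_surjective,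
    fun f => Ideal.Quotient.eq_zero_iff_mem, fun f => rfl⟩
  have hf' : IsOrd (N + 1) f.1 := hf
  exact hf'.comp hR hR0

end Vale.Agent.P253.S445
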