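import Vale.Agent.P253.S445.Nf3

/-!
P253: jets of functions and generalized eigenvectors of the composition operator.
-/

open scoped ContDiff Topology
open Set Metric Filter Asymptotics

set_option linter.unusedSectionVars false

noncomputable section

namespace Vale.Agent.P253.S445

variable {E : Type*} [NormedAddCommGroup E] [NormedSpace ℂ E] [FiniteDimensional ℂ E]
  {Y : Type*} [CommRing Y] [Algebra ℂ Y] {mk : HolA E →ₐ[ℂ] Y} {N : ℕ}

/-- Taylor expansion as an identity of jets -/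
theorem taylor_jet {ι : Type*} [Fintype ι] [DecidableEq ι]
    (hk : ∀ f, mk f = 0 ↔ IsOrd (N + 1) f.1) {y : ι → HolA E} (hy0 : ∀ i, (y i).1 0 = 0)
    (Y₀ : E ≃L[ℂ] (ι → ℂ)) (hY : ∀ i v, ddA (y i) v = Y₀ v i) (f : HolA E) :
    ∃ c : MonI ι N → ℂ, mk f = ∑ r : MonI ι N, c r • ∏ t, mk (y (r.2 t)) := by
  set yy : E → (ι → ℂ) := fun z i => (y i).1 z with hyy
  have h1 : ∀ᶠ z in 𝓝 (0:E), DifferentiableAt ℂ yy z := by
    have h2 : ∀ᶠ z in 𝓝 (0:E), ∀ i, DifferentiableAt ℂ (y i).1 z :=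
      eventually_all.2 fun i => (y i).2
    filter_upwards [h2] with z hz
    exact differentiableAt_pi.2 hz
  have h2 : HasFDerivAt yy (Y₀ : E →L[ℂ] (ι → ℂ)) 0 := by
    rw [hasFDerivAt_pi']
    intro i
    have h3 : HasFDerivAt (y i).1 (ddA (y i)) 0 := (hdiff0 (y i)).hasFDerivAt
    have h4 : ddA (y i) = (ContinuousLinearMap.proj i).comp (Y₀ : E →L[ℂ] (ι → ℂ)) := by
      ext v
      exact hY i v
    rw [h4] at h3
    exact h3
  obtain ⟨c, hc⟩ := taylor_coord (y := yy) (funext fun i => hy0 i) h1 Y₀ h2 f.2 N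
  refine ⟨c, ?_⟩
  have h3 : mk (f - ∑ r : MonI ι N, c r • ∏ t, y (r.2 t)) = 0 := by
    rw [hk]
    refine IsBigO.congr_left hc fun z => ?_
    have h4 : (f - ∑ r : MonI ι N, c r • ∏ t, y (r.2 t)).1 z =
        evA z (f - ∑ r : MonI ι N, c r • ∏ t, y (r.2 t)) := rfl
    rw [h4, map_sub, map_sum]
    refine congrArg₂ _ rfl (Finset.sum_congr rfl fun r _ => ?_)
    rw [map_smul, map_prod, smul_eq_mul]
    rfl
  rw [map_sub, sub_eq_zero] at h3
  rw [h3, map_sum]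
  refine Finset.sum_congr rfl fun r _ => ?_
  rw [map_smul, map_prod]

theorem finite_jet (hs : Function.Surjective mk) (hk : ∀ f, mk f = 0 ↔ IsOrd (N + 1) f.1) :
    Module.Finite ℂ Y := by
  classical
  set b := Module.finBasis ℂ E with hb
  set Y₀ : E ≃L[ℂ] (Fin (Module.finrank ℂ E) → ℂ) := b.equivFun.toContinuousLinearEquiv
  set y : Fin (Module.finrank ℂ E) → HolA E := fun i =>
    linA ((ContinuousLinearMap.proj i).comp (Y₀ : E →L[ℂ] (Fin (Module.finrank ℂ E) → ℂ))) with hy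
  have h1 : ∀ f : HolA E, ∃ c : MonI (Fin (Module.finrank ℂ E)) N → ℂ,
      mk f = ∑ r : MonI _ N, c r • ∏ t, mk (y (r.2 t)) := by
    intro f
    refine taylor_jet hk (fun i => ?_) Y₀ (fun i v => ?_) f
    · change ((ContinuousLinearMap.proj i).comp
        (Y₀ : E →L[ℂ] (Fin (Module.finrank ℂ E) → ℂ))) 0 = 0
      exact map_zero _
    · rw [hy, ddA_linA]
      rfl
  refine Module.Finite.of_surjective
    (Fintype.linearCombination ℂ (fun r : MonI (Fin (Module.finrank ℂ E)) N =>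
      ∏ t, mk (y (r.2 t)))) fun x => ?_
  obtain ⟨f, rfl⟩ := hs x
  obtain ⟨c, hc⟩ := h1 f
  exact ⟨c, by rw [Fintype.linearCombination_apply]; exact hc.symm⟩

/-- the differentials of the generalized eigenvectors span the cotangent space -/
theorem span_eig (hs : Function.Surjective mk) (hk : ∀ f, mk f = 0 ↔ IsOrd (N + 1) f.1)
    (hN : 1 ≤ N) (φ : Y →ₐ[ℂ] Y) :
    ⊤ ≤ Submodule.span ℂ {ℓ : E →L[ℂ] ℂ | ∃ (μ : ℂ) (g : HolA E),
      mk g ∈ VV φ μ ∧ ddA g = ℓ} := by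
  intro ℓ _
  set S := {ℓ : E →L[ℂ] ℂ | ∃ (μ : ℂ) (g : HolA E), mk g ∈ VV φ μ ∧ ddA g = ℓ} with hS
  have hfin : Module.Finite ℂ Y := finite_jet hs hk
  have htop : ⨆ μ, VV φ μ = ⊤ := Module.End.iSup_maxGenEigenspace_eq_top _
  have key : ∀ x ∈ ⨆ μ, VV φ μ, ∀ g : HolA E, mk g = x → ddA g ∈ Submodule.span ℂ S := by
    intro x hx
    refine Submodule.iSup_induction (motive := fun x => ∀ g : HolA E, mk g = x →
      ddA g ∈ Submodule.span ℂ S) _ hx ?_ ?_ ?_
    · intro μ x hx g hg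
      exact Submodule.subset_span ⟨μ, g, hg ▸ hx, rfl⟩
    · intro g hg
      rw [hk] at hg
      have h1 : ddA g = 0 := hg.fderiv (by omega)
      rw [h1]
      exact Submodule.zero_mem _
    · intro x₁ x₂ h1 h2 g hg
      obtain ⟨g₁, hg₁⟩ := hs x₁
      have h3 := h1 g₁ hg₁
      have h4 := h2 (g - g₁) (by rw [map_sub, hg, hg₁]; abel)
      rw [map_sub] at h4
      have h6 := Submodule.add_mem _ h4 h3
      rwa [sub_add_cancel] at h6
  have h1 := key (mk (linA ℓ)) (htop ▸ Submodule.mem_top) (linA ℓ) rfl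
  rwa [ddA_linA] at h1

/-- the differential of a generalized eigenvector -/
theorem eig_fderiv {R : E → E} {hR : ∀ᶠ z in 𝓝 (0:E), DifferentiableAt ℂ R z} {hR0 : R 0 = 0}
    (hk : ∀ f, mk f = 0 ↔ IsOrd (N + 1) f.1) (hN : 1 ≤ N) {φ : Y →ₐ[ℂ] Y}
    (hφ : ∀ f, φ (mk f) = mk (Cmp R hR hR0 f)) {μ : ℂ} {D : E →L[ℂ] E} (hD : HasFDerivAt R D 0) :
    ∀ (k : ℕ) (g : HolA E), (((φ.toLinearMap : Module.End ℂ Y) - μ • 1) ^ k) (mk g) = 0 →
      ddA g ≠ 0 → ∃ ℓ : E →L[ℂ] ℂ, ℓ ≠ 0 ∧ ℓ.comp D = μ • ℓ := by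
  intro k
  induction k with
  | zero =>
    intro g hg hne
    have h1 : mk g = 0 := by simpa using hg
    rw [hk] at h1
    exact absurd (h1.fderiv (by omega)) hne
  | succ k ih =>
    intro g hg hne
    rw [pow_succ, Module.End.mul_apply] at hg
    have h1 : ((φ.toLinearMap : Module.End ℂ Y) - μ • 1) (mk g) =
        mk (Cmp R hR hR0 g - μ • g) := by
      rw [map_sub, map_smul, ← hφ]
      rfl
    rw [h1] at hg
    have h2 : ddA (Cmp R hR hR0 g - μ • g) = (ddA g).comp D - μ • ddA g := by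
      rw [map_sub, map_smul, ddA_Cmp hR hR0 hD]
    by_cases h3 : ddA (Cmp R hR hR0 g - μ • g) = 0
    · rw [h2, sub_eq_zero] at h3
      exact ⟨_, hne, h3⟩
    · exact ih _ hg h3

end Vale.Agent.P253.S445
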