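import Vale.Agent.P253.S445.Nf4

/-!
P253: polynomial normal form of a contracting germ, up to an arbitrary order.
-/

open scoped ContDiff Topology
open Set Metric Filter Asymptotics

set_option linter.unusedSectionVars false

noncomputable section

namespace Vale.Agent.P253.S445

variable {E : Type*} [NormedAddCommGroup E] [NormedSpace ℂ E] [FiniteDimensional ℂ E]
  {Y : Type*} [CommRing Y] [Algebra ℂ Y] {mk : HolA E →ₐ[ℂ] Y} {N : ℕ}

/-- generalized eigenvectors for `μ ≠ 1` vanish at `0` -/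
theorem eig_zero {R : E → E} {hR : ∀ᶠ z in 𝓝 (0:E), DifferentiableAt ℂ R z} {hR0 : R 0 = 0}
    (hk : ∀ f, mk f = 0 ↔ IsOrd (N + 1) f.1) {φ : Y →ₐ[ℂ] Y}
    (hφ : ∀ f, φ (mk f) = mk (Cmp R hR hR0 f)) {μ : ℂ} (hμ : μ ≠ 1) :
    ∀ (k : ℕ) (g : HolA E), (((φ.toLinearMap : Module.End ℂ Y) - μ • 1) ^ k) (mk g) = 0 →
      g.1 0 = 0 := by
  intro k
  induction k with
  | zero =>
    intro g hg
    have h1 : mk g = 0 := by simpa using hg
    rw [hk] at h1
    exact h1.zero (by omega)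
  | succ k ih =>
    intro g hg
    rw [pow_succ, Module.End.mul_apply] at hg
    have h1 : ((φ.toLinearMap : Module.End ℂ Y) - μ • 1) (mk g) =
        mk (Cmp R hR hR0 g - μ • g) := by
      rw [map_sub, map_smul, ← hφ]
      rfl
    rw [h1] at hg
    have h2 := ih _ hg
    have h3 : (Cmp R hR hR0 g - μ • g).1 0 = g.1 (R 0) - μ * g.1 0 := rfl
    rw [h3, hR0] at h2
    have h4 : (1 - μ) * g.1 0 = 0 := by
      rw [← h2]
      ring
    exact (mul_eq_zero.1 h4).resolve_left (sub_ne_zero.2 hμ.symm)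

/-- diagonal equivalence -/
def diagE {κ : Type*} [Fintype κ] (μ : κ → ℂ) (h : ∀ i, μ i ≠ 0) : (κ → ℂ) ≃L[ℂ] (κ → ℂ) where
  toFun w i := μ i * w i
  invFun w i := (μ i)⁻¹ * w i
  map_add' v w := by funext i; simp [mul_add]
  map_smul' c w := by funext i; simp [mul_left_comm]
  left_inv w := by funext i; simp [inv_mul_cancel_left₀ (h i)]
  right_inv w := by funext i; simp [mul_inv_cancel_left₀ (h i)]
  continuous_toFun := by fun_prop
  continuous_invFun := by fun_prop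

theorem diagE_apply {κ : Type*} [Fintype κ] (μ : κ → ℂ) (h : ∀ i, μ i ≠ 0) (w : κ → ℂ) (i : κ) :
    diagE μ h w i = μ i * w i := rfl

universe u

/-- normal form, in coordinates -/
theorem normal_form_coord {E : Type u} [NormedAddCommGroup E] [NormedSpace ℂ E]
    [FiniteDimensional ℂ E] {N : ℕ} {R : E → E} (hR : ∀ᶠ z in 𝓝 (0:E), DifferentiableAt ℂ R z)
    (hR0 : R 0 = 0) {D : E ≃L[ℂ] E} (hD : HasFDerivAt R (D : E →L[ℂ] E) 0) {b : ℝ} (hb : b < 1)
    (hDb : ∀ v, ‖D v‖ ≤ b * ‖v‖) (hN : 1 ≤ N) :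
    ∃ (κ : Type u) (_ : Fintype κ) (μ : κ → ℂ) (y : κ → HolA E) (Y₀ : E ≃L[ℂ] (κ → ℂ))
      (Gc : (κ → ℂ) → (κ → ℂ)), (∀ i, μ i ≠ 0) ∧ (∀ i, ‖μ i‖ < 1) ∧ (∀ i, (y i).1 0 = 0) ∧
      (∀ i v, ddA (y i) v = Y₀ v i) ∧ Differentiable ℂ Gc ∧ Gc 0 = 0 ∧
      (∀ w i, Gc (fun j => μ j * w j) i = μ i * Gc w i) ∧
      ∀ i, IsOrd (N + 1) (fun z => (y i).1 (R z) - Gc (fun j => (y j).1 z) i) := by
  classical
  obtain ⟨Y, iY, iA, mk, φ, hs, hk, hφ⟩ := exists_jet E hR hR0 N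
  have hspan := span_eig hs hk hN φ
  have hfd : FiniteDimensional ℂ (E →L[ℂ] ℂ) := inferInstance
  obtain ⟨κ, iκ, Bs, hB⟩ : ∃ (κ : Type _) (_ : Fintype κ)
      (Bs : Module.Basis κ ℂ (E →L[ℂ] ℂ)),
      ∀ i, ∃ (μ : ℂ) (g : HolA E), mk g ∈ VV φ μ ∧ ddA g = Bs i :=
    ⟨_, FiniteDimensional.fintypeBasisIndex (Module.Basis.ofSpan hspan),
      Module.Basis.ofSpan hspan, fun i =>
        Module.Basis.ofSpan_subset hspan (mem_range_self i)⟩
  choose μ g hg hgd using hB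
  have heig : ∀ i, ∃ ℓ : E →L[ℂ] ℂ, ℓ ≠ 0 ∧ ℓ.comp (D : E →L[ℂ] E) = μ i • ℓ := by
    intro i
    obtain ⟨k, hk'⟩ := mem_VV.1 (hg i)
    exact eig_fderiv hk hN hφ hD k (g i) hk' (by rw [hgd]; exact Bs.ne_zero i)
  have hμ0 : ∀ i, μ i ≠ 0 := by
    intro i hi
    obtain ⟨ℓ, hℓ, hℓD⟩ := heig i
    apply hℓ
    ext v
    have h1 : ℓ (D (D.symm v)) = μ i * ℓ (D.symm v) :=
      congrArg (fun T : E →L[ℂ] ℂ => T (D.symm v)) hℓD
    rw [D.apply_symm_apply, hi, zero_mul] at h1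
    exact h1
  have hμ1 : ∀ i, ‖μ i‖ < 1 := by
    intro i
    obtain ⟨ℓ, hℓ, hℓD⟩ := heig i
    have h1 : ‖ℓ.comp (D : E →L[ℂ] E)‖ ≤ ‖ℓ‖ * max b 0 := by
      refine ContinuousLinearMap.opNorm_le_bound _ (by positivity) fun v => ?_
      calc ‖ℓ (D v)‖ ≤ ‖ℓ‖ * ‖D v‖ := ℓ.le_opNorm _
        _ ≤ ‖ℓ‖ * (max b 0 * ‖v‖) := by
          refine mul_le_mul_of_nonneg_left ((hDb v).trans ?_) (norm_nonneg _)
          exact mul_le_mul_of_nonneg_right (le_max_left _ _) (norm_nonneg _)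
        _ = _ := by ring
    rw [hℓD, norm_smul, mul_comm] at h1
    have h2 : ‖μ i‖ ≤ max b 0 := le_of_mul_le_mul_left h1 (norm_pos_iff.2 hℓ)
    exact h2.trans_lt (max_lt hb one_pos)
  have hμne : ∀ i, μ i ≠ 1 := fun i hi => by
    have := hμ1 i
    rw [hi, norm_one] at this
    exact lt_irrefl _ this
  have hg0 : ∀ i, (g i).1 0 = 0 := by
    intro i
    obtain ⟨k, hk'⟩ := mem_VV.1 (hg i)
    exact eig_zero hk hφ (hμne i) k (g i) hk'
  -- the linear coordinates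
  set T : E →ₗ[ℂ] (κ → ℂ) := LinearMap.pi fun i => ((Bs i : E →L[ℂ] ℂ) : E →ₗ[ℂ] ℂ) with hT
  have hTinj : Function.Injective T := by
    rw [← LinearMap.ker_eq_bot, LinearMap.ker_eq_bot']
    intro v hv
    have h1 : ∀ i, Bs i v = 0 := fun i => congrFun hv i
    have h2 : ∀ ℓ : E →L[ℂ] ℂ, ℓ v = 0 := by
      intro ℓ
      let ev : (E →L[ℂ] ℂ) →ₗ[ℂ] ℂ :=
        { toFun := fun T => T v, map_add' := fun _ _ => rfl, map_smul' := fun _ _ => rfl }
      have h2 : ev ℓ = 0 := by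
        rw [← Bs.sum_repr ℓ, map_sum]
        refine Finset.sum_eq_zero fun i _ => ?_
        rw [map_smul]
        have h3 : ev (Bs i) = 0 := h1 i
        rw [h3, smul_zero]
      exact h2
    by_contra hne
    obtain ⟨ℓ, hℓ⟩ := SeparatingDual.exists_ne_zero (R := ℂ) hne
    exact hℓ (h2 ℓ)
  have hdim : Module.finrank ℂ E = Module.finrank ℂ (κ → ℂ) := by
    rw [Module.finrank_fintype_fun_eq_card, ← Module.finrank_eq_card_basis Bs,
      ← (LinearMap.toContinuousLinearMap : (E →ₗ[ℂ] ℂ) ≃ₗ[ℂ] E →L[ℂ] ℂ).finrank_eq]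
    exact (Subspace.dual_finrank_eq (K := ℂ) (V := E)).symm
  set Y₀ : E ≃L[ℂ] (κ → ℂ) :=
    (LinearEquiv.ofInjectiveOfFinrankEq T hTinj hdim).toContinuousLinearEquiv with hY₀
  have hY₀a : ∀ v i, Y₀ v i = Bs i v := fun v i => rfl
  have htay : ∀ i, ∃ c : MonI κ N → ℂ, mk (Cmp R hR hR0 (g i)) =
      ∑ r : MonI κ N, c r • ∏ t, mk (g (r.2 t)) := fun i =>
    taylor_jet hk hg0 Y₀ (fun i v => by rw [hgd, hY₀a]) _
  choose c hc using htay
  set ν : MonI κ N → ℂ := fun r => ∏ t, μ (r.2 t) with hν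
  have hsel : ∀ i, mk (Cmp R hR hR0 (g i)) =
      ∑ r with ν r = μ i, c i r • ∏ t, mk (g (r.2 t)) := by
    intro i
    refine VV_select (φ := φ) (ν := ν) ?_ (fun r => ?_) (hc i)
    · rw [← hφ]
      exact VV_map (hg i)
    · exact VV_prod _ fun t => hg (r.2 t)
  refine ⟨κ, iκ, μ, g, Y₀,
    fun w i => ∑ r with ν r = μ i, c i r * ∏ t, w (r.2 t), hμ0, hμ1, hg0,
    fun i v => by rw [hgd, hY₀a], ?_, ?_, ?_, ?_⟩
  · rw [differentiable_pi]
    intro i
    refine Differentiable.fun_sum fun r _ => Differentiable.const_mul ?_ _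
    have h1 : ∀ t, Differentiable ℂ (fun w : κ → ℂ => w (r.2 t)) := fun t =>
      differentiable_apply (r.2 t)
    intro w
    have h2 : ∀ t ∈ (Finset.univ : Finset (Fin r.1)),
        HasFDerivAt (fun w : κ → ℂ => w (r.2 t)) (fderiv ℂ (fun w : κ → ℂ => w (r.2 t)) w) w :=
      fun t _ => (h1 t w).hasFDerivAt
    exact (HasFDerivAt.finsetProd (u := Finset.univ)
      (g := fun (t : Fin r.1) (w : κ → ℂ) => w (r.2 t)) h2).differentiableAt
  · funext i
    refine Finset.sum_eq_zero fun r hr => ?_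
    rw [Finset.mem_filter] at hr
    obtain ⟨⟨j, hj⟩, r⟩ := r
    rcases j with _ | j
    · exfalso
      have h1 := hr.2
      simp only [hν] at h1
      rw [Finset.prod_of_isEmpty] at h1
      exact hμne i h1.symm
    · have h1 : ∏ t : Fin (j + 1), (0 : κ → ℂ) (r t) = 0 := by
        rw [Finset.prod_eq_zero_iff]
        exact ⟨0, Finset.mem_univ _, rfl⟩
      simp only
      rw [h1, mul_zero]
  · intro w i
    simp only
    rw [Finset.mul_sum]
    refine Finset.sum_congr rfl fun r hr => ?_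
    rw [Finset.mem_filter] at hr
    rw [Finset.prod_mul_distrib]
    have h1 : ∏ t, μ (r.2 t) = μ i := hr.2
    rw [h1]
    ring
  · intro i
    have h1 : mk (Cmp R hR hR0 (g i) - ∑ r with ν r = μ i, c i r • ∏ t, g (r.2 t)) = 0 := by
      rw [map_sub, hsel i, sub_eq_zero, map_sum]
      refine Finset.sum_congr rfl fun r _ => ?_
      rw [map_smul, map_prod]
    rw [hk] at h1
    refine IsBigO.congr_left h1 fun z => ?_
    have h4 : (Cmp R hR hR0 (g i) - ∑ r with ν r = μ i, c i r • ∏ t, g (r.2 t)).1 z =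
        evA z (Cmp R hR hR0 (g i) - ∑ r with ν r = μ i, c i r • ∏ t, g (r.2 t)) := rfl
    rw [h4, map_sub, map_sum]
    refine congrArg₂ _ rfl (Finset.sum_congr rfl fun r _ => ?_)
    rw [map_smul, map_prod, smul_eq_mul]
    rfl

/-- normal form up to the order `N` -/
theorem normal_form {E : Type u} [NormedAddCommGroup E] [NormedSpace ℂ E]
    [FiniteDimensional ℂ E] {N : ℕ} {R : E → E} (hR : ∀ᶠ z in 𝓝 (0:E), DifferentiableAt ℂ R z)
    (hR0 : R 0 = 0) {D : E ≃L[ℂ] E} (hD : HasFDerivAt R (D : E →L[ℂ] E) 0) {b : ℝ} (hb : b < 1)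
    (hDb : ∀ v, ‖D v‖ ≤ b * ‖v‖) (hN : 1 ≤ N) :
    ∃ (y G : E → E) (Λ : E ≃L[ℂ] E), (∀ᶠ z in 𝓝 (0:E), DifferentiableAt ℂ y z) ∧ y 0 = 0 ∧
      HasFDerivAt y (ContinuousLinearMap.id ℂ E) 0 ∧ Differentiable ℂ G ∧ G 0 = 0 ∧
      (∀ w, G (Λ w) = Λ (G w)) ∧ (∀ w, Tendsto (fun k : ℕ => (Λ^[k]) w) atTop (𝓝 0)) ∧
      (fun z => y (R z) - G (y z)) =O[𝓝 0] fun z : E => ‖z‖ ^ (N + 1) := by
  obtain ⟨κ, iκ, μ, y, Y₀, Gc, hμ0, hμ1, hy0, hY, hGd, hG0, hGμ, hO⟩ :=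
    normal_form_coord hR hR0 hD hb hDb hN
  set yy : E → (κ → ℂ) := fun z i => (y i).1 z with hyy
  have hyyd : ∀ᶠ z in 𝓝 (0:E), DifferentiableAt ℂ yy z := by
    have h2 : ∀ᶠ z in 𝓝 (0:E), ∀ i, DifferentiableAt ℂ (y i).1 z :=
      eventually_all.2 fun i => (y i).2
    filter_upwards [h2] with z hz
    exact differentiableAt_pi.2 hz
  have hyyf : HasFDerivAt yy (Y₀ : E →L[ℂ] (κ → ℂ)) 0 := by
    rw [hasFDerivAt_pi']
    intro i
    have h3 : HasFDerivAt (y i).1 (ddA (y i)) 0 := (hdiff0 (y i)).hasFDerivAt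
    have h4 : ddA (y i) = (ContinuousLinearMap.proj i).comp (Y₀ : E →L[ℂ] (κ → ℂ)) := by
      ext v
      exact hY i v
    rw [h4] at h3
    exact h3
  set Λ : E ≃L[ℂ] E := (Y₀.trans (diagE μ hμ0)).trans Y₀.symm with hΛ
  have hΛa : ∀ w, Λ w = Y₀.symm (diagE μ hμ0 (Y₀ w)) := fun w => rfl
  refine ⟨fun z => Y₀.symm (yy z), fun w => Y₀.symm (Gc (Y₀ w)), Λ, ?_, ?_, ?_, ?_, ?_, ?_, ?_, ?_⟩
  · filter_upwards [hyyd] with z hz
    exact Y₀.symm.differentiableAt.comp z hz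
  · have : yy 0 = 0 := funext fun i => hy0 i
    simp only [this, map_zero]
  · have h1 := (Y₀.symm.hasFDerivAt (x := yy 0)).comp (0:E) hyyf
    have h2 : ((Y₀.symm : (κ → ℂ) →L[ℂ] E).comp (Y₀ : E →L[ℂ] (κ → ℂ))) =
        ContinuousLinearMap.id ℂ E := by
      ext v
      exact Y₀.symm_apply_apply v
    rw [h2] at h1
    exact h1
  · exact Y₀.symm.differentiable.comp (hGd.comp Y₀.differentiable)
  · simp only [map_zero, hG0]
  · intro w
    rw [hΛa, hΛa]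
    simp only [ContinuousLinearEquiv.apply_symm_apply]
    congr 1
    funext i
    exact hGμ (Y₀ w) i
  · intro w
    have h1 : ∀ k : ℕ, (Λ^[k]) w = Y₀.symm (fun i => μ i ^ k * Y₀ w i) := by
      intro k
      induction k with
      | zero =>
        simp only [Function.iterate_zero, id, pow_zero, one_mul]
        exact (Y₀.symm_apply_apply w).symm
      | succ k ih =>
        rw [Function.iterate_succ_apply', ih, hΛa, ContinuousLinearEquiv.apply_symm_apply]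
        congr 1
        funext i
        rw [diagE_apply, pow_succ]
        ring
    have h2 : Tendsto (fun k : ℕ => (fun i => μ i ^ k * Y₀ w i : κ → ℂ)) atTop (𝓝 0) := by
      rw [tendsto_pi_nhds]
      intro i
      have h3 := (tendsto_pow_atTop_nhds_zero_of_norm_lt_one (hμ1 i)).mul_const (Y₀ w i)
      simpa using h3
    have h3 := (Y₀.symm.continuous.tendsto 0).comp h2
    rw [map_zero] at h3
    refine h3.congr fun k => ?_
    rw [h1 k]
    rfl
  · have h1 : (fun z => yy (R z) - Gc (yy z)) =O[𝓝 0] fun z : E => ‖z‖ ^ (N + 1) := by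
      rw [isBigO_pi]
      exact fun i => hO i
    have h2 := ((Y₀.symm : (κ → ℂ) →L[ℂ] E).isBigO_comp
      (fun z => yy (R z) - Gc (yy z)) (𝓝 0)).trans h1
    refine h2.congr_left fun z => ?_
    change Y₀.symm (yy (R z) - Gc (yy z)) = _
    rw [map_sub]
    simp only [ContinuousLinearEquiv.apply_symm_apply]

end Vale.Agent.P253.S445
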