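import Vale.Agent.P253.S445.Nf5
import Mathlib.Analysis.Calculus.InverseFunctionTheorem.ContDiff

/-!
P253: conjugation of a contracting germ to a global automorphism.
-/

open scoped ContDiff Topology
open Set Metric Filter Asymptotics

set_option linter.unusedSectionVars false

noncomputable section

namespace Vale.Agent.P253.S445

variable {E : Type*} [NormedAddCommGroup E] [NormedSpace ℂ E] [FiniteDimensional ℂ E]

/-- a map which commutes with a linear contraction and is invertible near `0` is an automorphism -/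
theorem exists_auto {G : E → E} (hG : Differentiable ℂ G) (hG0 : G 0 = 0) {D : E ≃L[ℂ] E}
    (hGD : HasFDerivAt G (D : E →L[ℂ] E) 0) {Λ : E ≃L[ℂ] E} (hΛ : ∀ w, G (Λ w) = Λ (G w))
    (hΛt : ∀ w, Tendsto (fun k : ℕ => (Λ^[k]) w) atTop (𝓝 0)) {c : ℝ} (hc0 : 0 ≤ c) (hc1 : c < 1)
    (hDc : ∀ᶠ w in 𝓝 (0:E), ‖G w‖ ≤ c * ‖w‖) :
    ∃ Gi : E → E, (∀ w, Gi (G w) = w) ∧ (∀ w, G (Gi w) = w) ∧ Differentiable ℂ Gi ∧
      ∀ w, Tendsto (fun k : ℕ => (G^[k]) w) atTop (𝓝 0) := by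
  have hCE : CompleteSpace E := FiniteDimensional.complete ℂ E
  have hGc : ContDiffAt ℂ 1 G 0 :=
    (analyticAt_of_ev (Eventually.of_forall fun z => hG z)).contDiffAt
  set ℓ : OpenPartialHomeomorph E E := hGc.toOpenPartialHomeomorph G hGD one_ne_zero with hℓ
  have hℓc : ∀ u, ℓ u = G u := fun u => rfl
  have h0s : (0 : E) ∈ ℓ.source := hGc.mem_toOpenPartialHomeomorph_source hGD one_ne_zero
  have h0t : (0 : E) ∈ ℓ.target := by
    have h1 := hGc.image_mem_toOpenPartialHomeomorph_target hGD one_ne_zero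
    rwa [hG0] at h1
  have hℓs : ∀ᶠ w in 𝓝 (0:E), ContDiffAt ℂ 1 ℓ.symm w := by
    have h1 := hGc.to_localInverse hGD one_ne_zero
    rw [hG0] at h1
    exact h1.eventually (by simp)
  have hgood : ∀ᶠ w in 𝓝 (0:E), w ∈ ℓ.target ∧ ContDiffAt ℂ 1 ℓ.symm w := by
    have hA : ∀ᶠ w in 𝓝 (0:E), w ∈ ℓ.target := ℓ.open_target.mem_nhds h0t
    exact hA.and hℓs
  obtain ⟨r, hr, hball⟩ := Metric.eventually_nhds_iff_ball.1 hgood
  have hk : ∀ (k : ℕ) w, G ((Λ^[k]) w) = (Λ^[k]) (G w) := by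
    intro k w
    induction k with
    | zero => rfl
    | succ k ih => rw [Function.iterate_succ_apply', Function.iterate_succ_apply', hΛ, ih]
  have hΛinj : ∀ k : ℕ, Function.Injective (Λ^[k]) := fun k => Λ.injective.iterate k
  have hΛs : ∀ (k : ℕ) w, (Λ^[k]) ((Λ.symm^[k]) w) = w := fun k w =>
    (Function.RightInverse.iterate (f := Λ) (g := Λ.symm) (fun x => Λ.apply_symm_apply x) k) w
  have hinj : Function.Injective G := by
    intro z w hzw
    have h1 : ∀ᶠ u in 𝓝 (0:E), u ∈ ℓ.source := ℓ.open_source.mem_nhds h0s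
    obtain ⟨k, hz, hw⟩ := (((hΛt z).eventually h1).and ((hΛt w).eventually h1)).exists
    have h2 : ℓ ((Λ^[k]) z) = ℓ ((Λ^[k]) w) := by
      rw [hℓc, hℓc, hk, hk, hzw]
    exact hΛinj k (ℓ.injOn hz hw h2)
  have hloc : ∀ (k : ℕ) v, (Λ^[k]) v ∈ ball (0:E) r →
      G ((Λ.symm^[k]) (ℓ.symm ((Λ^[k]) v))) = v := by
    intro k v hv
    apply hΛinj k
    rw [← hk, hΛs, ← hℓc, ℓ.right_inv (hball _ hv).1]
  have hexk : ∀ v : E, ∃ k : ℕ, (Λ^[k]) v ∈ ball (0:E) r := fun v =>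
    ((hΛt v).eventually (ball_mem_nhds (0:E) hr)).exists
  have hsurj : Function.Surjective G := fun v => by
    obtain ⟨k, hk'⟩ := hexk v
    exact ⟨_, hloc k v hk'⟩
  set Ge : E ≃ E := Equiv.ofBijective G ⟨hinj, hsurj⟩ with hGe
  have hGea : ∀ x, Ge x = G x := fun x => rfl
  have hGi1 : ∀ w, Ge.symm (G w) = w := fun w => by rw [← hGea, Ge.symm_apply_apply]
  have hGi2 : ∀ w, G (Ge.symm w) = w := fun w => by rw [← hGea, Ge.apply_symm_apply]
  refine ⟨Ge.symm, hGi1, hGi2, ?_, ?_⟩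
  · intro v
    obtain ⟨k, hk'⟩ := hexk v
    have hc : Differentiable ℂ (Λ^[k]) := Λ.differentiable.iterate k
    have hc' : Differentiable ℂ (Λ.symm^[k]) := Λ.symm.differentiable.iterate k
    have h1 : ∀ᶠ w in 𝓝 v, Ge.symm w = (Λ.symm^[k]) (ℓ.symm ((Λ^[k]) w)) := by
      filter_upwards [(isOpen_ball.preimage hc.continuous).mem_nhds hk'] with w hw
      rw [Equiv.symm_apply_eq, hGea, hloc k w hw]
    have h2 : DifferentiableAt ℂ (fun w => (Λ.symm^[k]) (ℓ.symm ((Λ^[k]) w))) v := by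
      have h3 : DifferentiableAt ℂ ℓ.symm ((Λ^[k]) v) :=
        (hball _ hk').2.differentiableAt (by simp)
      exact (hc' _).comp v (h3.comp v (hc v))
    exact h2.congr_of_eventuallyEq h1
  · -- the iterates tend to zero
    obtain ⟨ε, hε, hεb⟩ := Metric.eventually_nhds_iff_ball.1 hDc
    have hnear : ∀ w ∈ ball (0:E) ε, ∀ k : ℕ, (G^[k]) w ∈ ball (0:E) ε ∧
        ‖(G^[k]) w‖ ≤ c ^ k * ‖w‖ := by
      intro w hw k
      induction k with
      | zero => simpa using hw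
      | succ k ih =>
        rw [Function.iterate_succ_apply']
        have h1 := hεb _ ih.1
        refine ⟨?_, ?_⟩
        · have h2 := ih.1
          rw [mem_ball_zero_iff] at h2 ⊢
          exact (h1.trans (mul_le_of_le_one_left (norm_nonneg _) hc1.le)).trans_lt h2
        · calc _ ≤ c * ‖(G^[k]) w‖ := h1
            _ ≤ c * (c ^ k * ‖w‖) := mul_le_mul_of_nonneg_left ih.2 hc0
            _ = _ := by ring
    intro w
    obtain ⟨j, hj⟩ := ((hΛt w).eventually (ball_mem_nhds (0:E) hε)).exists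
    have h1 : Tendsto (fun k : ℕ => (G^[k]) ((Λ^[j]) w)) atTop (𝓝 0) := by
      refine squeeze_zero_norm (fun k => (hnear _ hj k).2) ?_
      simpa using (tendsto_pow_atTop_nhds_zero_of_lt_one hc0 hc1).mul_const ‖(Λ^[j]) w‖
    have h2 : ∀ k : ℕ, (G^[k]) ((Λ^[j]) w) = (Λ^[j]) ((G^[k]) w) := by
      intro k
      induction k with
      | zero => rfl
      | succ k ih => rw [Function.iterate_succ_apply', Function.iterate_succ_apply', ih, hk]
    have hc' : Continuous (Λ.symm^[j]) := Λ.symm.continuous.iterate j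
    have h3 := (hc'.tendsto 0).comp h1
    have h4 : (Λ.symm^[j]) (0:E) = 0 := Function.iterate_fixed (map_zero _) j
    rw [h4] at h3
    refine h3.congr fun k => ?_
    simp only [Function.comp, h2]
    exact (Function.LeftInverse.iterate (f := Λ) (g := Λ.symm)
      (fun x => Λ.symm_apply_apply x) j) _

/-- the conjugation -/
theorem exists_conj {R G Gi y : E → E} {c K C δ₀ ρ : ℝ} {N : ℕ} (hN : 1 ≤ N) (hc0 : 0 ≤ c)
    (hc1 : c < 1) (hK : 0 ≤ K) (hθ : K * c ^ (N + 1) < 1) (hC : 0 ≤ C) (hδ₀ : 0 < δ₀) (hρ : 0 < ρ)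
    (hGi1 : ∀ w, Gi (G w) = w) (hGi2 : ∀ w, G (Gi w) = w) (hGid : Differentiable ℂ Gi)
    (hGc : Continuous G) (hG0 : G 0 = 0)
    (hLip : ∀ u ∈ ball (0:E) ρ, ∀ v ∈ ball (0:E) ρ, ‖Gi u - Gi v‖ ≤ K * ‖u - v‖)
    (hRd : DifferentiableOn ℂ R (ball 0 δ₀)) (hRc : ∀ u ∈ ball (0:E) δ₀, ‖R u‖ ≤ c * ‖u‖)
    (hyd : DifferentiableOn ℂ y (ball 0 δ₀)) (hyb : ∀ u ∈ ball (0:E) δ₀, ‖y u‖ ≤ 3 / 2 * ‖u‖)
    (hy1 : HasFDerivAt y (ContinuousLinearMap.id ℂ E) 0) (hy0 : y 0 = 0)
    (hO : ∀ u ∈ ball (0:E) δ₀, ‖y (R u) - G (y u)‖ ≤ C * ‖u‖ ^ (N + 1)) :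
    ∃ δ > 0, ∃ L : E → E, DifferentiableOn ℂ L (ball 0 δ) ∧ L 0 = 0 ∧
      HasFDerivAt L (ContinuousLinearMap.id ℂ E) 0 ∧ (∀ u ∈ ball (0:E) δ, ‖R u‖ ≤ ‖u‖) ∧
      ∀ u ∈ ball (0:E) δ, L (R u) = G (L u) := by
  have hCE : CompleteSpace E := FiniteDimensional.complete ℂ E
  set θ : ℝ := K * c ^ (N + 1) with hθdef
  have hθ0 : 0 ≤ θ := by positivity
  set A : ℝ := K * C with hA
  have hA0 : 0 ≤ A := by positivity
  have h1θ : 0 < 1 - θ := by linarith
  set B : ℝ := A / (1 - θ) with hB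
  have hB0 : 0 ≤ B := by positivity
  -- the radius
  have hGy : ∀ᶠ u in 𝓝 (0:E), G (y u) ∈ ball (0:E) ρ := by
    have h1 : Tendsto (fun u => G (y u)) (𝓝 0) (𝓝 0) := by
      have h2 := (hGc.tendsto (y 0)).comp hy1.continuousAt.tendsto
      rw [hy0, hG0] at h2
      exact h2
    exact h1.eventually (ball_mem_nhds (0:E) hρ)
  obtain ⟨δ₁, hδ₁, hball₁⟩ := Metric.eventually_nhds_iff_ball.1 hGy
  set δ : ℝ := min (min δ₀ δ₁) (min (min 1 (ρ / 2)) (1 / (2 * (B + 1)))) with hδdef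
  have hδ : 0 < δ := by
    refine lt_min (lt_min hδ₀ hδ₁) (lt_min (lt_min one_pos (by positivity)) (by positivity))
  have hδ_0 : δ ≤ δ₀ := (min_le_left _ _).trans (min_le_left _ _)
  have hδ_1 : δ ≤ δ₁ := (min_le_left _ _).trans (min_le_right _ _)
  have hδ_o : δ ≤ 1 := (min_le_right _ _).trans ((min_le_left _ _).trans (min_le_left _ _))
  have hδ_ρ : δ ≤ ρ / 2 := (min_le_right _ _).trans ((min_le_left _ _).trans (min_le_right _ _))
  have hδ_B : δ ≤ 1 / (2 * (B + 1)) := (min_le_right _ _).trans (min_le_right _ _)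
  have hs0 : ball (0:E) δ ⊆ ball 0 δ₀ := ball_subset_ball hδ_0
  have hs1 : ball (0:E) δ ⊆ ball 0 δ₁ := ball_subset_ball hδ_1
  have hBδ : ∀ u ∈ ball (0:E) δ, B * ‖u‖ ^ (N + 1) ≤ 1 / 2 * ‖u‖ := by
    intro u hu
    have hu' : ‖u‖ < δ := by simpa using hu
    have h1 : ‖u‖ ^ N ≤ ‖u‖ := by
      calc ‖u‖ ^ N ≤ ‖u‖ ^ 1 :=
            pow_le_pow_of_le_one (norm_nonneg _) (hu'.le.trans hδ_o) hN
        _ = ‖u‖ := pow_one _
    have h2 : B * ‖u‖ ≤ 1 / 2 := by
      have h3 : ‖u‖ ≤ 1 / (2 * (B + 1)) := hu'.le.trans hδ_B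
      rw [le_div_iff₀ (by positivity)] at h3
      nlinarith [norm_nonneg u]
    calc B * ‖u‖ ^ (N + 1) = (B * ‖u‖ ^ N) * ‖u‖ := by ring
      _ ≤ (B * ‖u‖) * ‖u‖ := by gcongr
      _ ≤ 1 / 2 * ‖u‖ := mul_le_mul_of_nonneg_right h2 (norm_nonneg _)
  have hRle : ∀ u ∈ ball (0:E) δ, ‖R u‖ ≤ ‖u‖ := fun u hu =>
    (hRc u (hs0 hu)).trans (mul_le_of_le_one_left (norm_nonneg _) hc1.le)
  have hmaps : ∀ u ∈ ball (0:E) δ, R u ∈ ball (0:E) δ := fun u hu => by
    have hu' : ‖u‖ < δ := by simpa using hu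
    simpa using (hRle u hu).trans_lt hu'
  -- the iteration
  set F : ℕ → E → E := fun k => Nat.rec y (fun _ f u => Gi (f (R u))) k with hF
  have hF0 : F 0 = y := rfl
  have hFs : ∀ k u, F (k + 1) u = Gi (F k (R u)) := fun k u => rfl
  have hmain : ∀ k : ℕ, ∀ u ∈ ball (0:E) δ,
      ‖F k u - y u‖ ≤ A * (∑ j ∈ Finset.range k, θ ^ j) * ‖u‖ ^ (N + 1) ∧
      ‖F (k + 1) u - F k u‖ ≤ A * θ ^ k * ‖u‖ ^ (N + 1) := by
    have hgeo : ∀ k : ℕ, A * (∑ j ∈ Finset.range k, θ ^ j) ≤ B := by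
      intro k
      rw [hB, div_eq_mul_inv]
      refine mul_le_mul_of_nonneg_left ?_ hA0
      have h1 := (summable_geometric_of_lt_one hθ0 hθ).sum_le_tsum (Finset.range k)
        (fun j _ => by positivity)
      rwa [tsum_geometric_of_lt_one hθ0 hθ] at h1
    have hsmall : ∀ k : ℕ, ∀ u ∈ ball (0:E) δ,
        ‖F k u - y u‖ ≤ A * (∑ j ∈ Finset.range k, θ ^ j) * ‖u‖ ^ (N + 1) →
        F k u ∈ ball (0:E) ρ := by
      intro k u hu h
      have hu' : ‖u‖ < δ := by simpa using hu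
      have h1 : ‖F k u - y u‖ ≤ 1 / 2 * ‖u‖ :=
        (h.trans (mul_le_mul_of_nonneg_right (hgeo k) (by positivity))).trans (hBδ u hu)
      have h2 := hyb u (hs0 hu)
      have h3 : ‖F k u‖ ≤ ‖y u‖ + ‖F k u - y u‖ := by
        calc ‖F k u‖ = ‖y u + (F k u - y u)‖ := by congr 1; abel
          _ ≤ _ := norm_add_le _ _
      rw [mem_ball_zero_iff]
      linarith
    intro k
    induction k with
    | zero =>
      intro u hu
      refine ⟨by simp [hF0], ?_⟩
      rw [hFs, hF0]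
      have h1 : y u = Gi (G (y u)) := (hGi1 _).symm
      have h2 : y (R u) ∈ ball (0:E) ρ := by
        have h3 := hyb (R u) (hs0 (hmaps u hu))
        have h4 := hRle u hu
        have hu' : ‖u‖ < δ := by simpa using hu
        rw [mem_ball_zero_iff]
        linarith
      rw [h1]
      calc ‖Gi (y (R u)) - Gi (G (y u))‖ ≤ K * ‖y (R u) - G (y u)‖ :=
            hLip _ h2 _ (hball₁ u (hs1 hu))
        _ ≤ K * (C * ‖u‖ ^ (N + 1)) := mul_le_mul_of_nonneg_left (hO u (hs0 hu)) hK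
        _ = A * θ ^ 0 * ‖u‖ ^ (N + 1) := by rw [hA]; ring
    | succ k ih =>
      intro u hu
      obtain ⟨h1, h2⟩ := ih u hu
      have h3 : ‖F (k + 1) u - y u‖ ≤
          A * (∑ j ∈ Finset.range (k + 1), θ ^ j) * ‖u‖ ^ (N + 1) := by
        calc ‖F (k + 1) u - y u‖ = ‖(F (k + 1) u - F k u) + (F k u - y u)‖ := by congr 1; abel
          _ ≤ ‖F (k + 1) u - F k u‖ + ‖F k u - y u‖ := norm_add_le _ _
          _ ≤ A * θ ^ k * ‖u‖ ^ (N + 1) +
              A * (∑ j ∈ Finset.range k, θ ^ j) * ‖u‖ ^ (N + 1) := add_le_add h2 h1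
          _ = _ := by rw [Finset.sum_range_succ]; ring
      refine ⟨h3, ?_⟩
      obtain ⟨h4, h5⟩ := ih (R u) (hmaps u hu)
      have h6 : ‖F (k + 1) (R u) - y (R u)‖ ≤
          A * (∑ j ∈ Finset.range (k + 1), θ ^ j) * ‖R u‖ ^ (N + 1) := by
        calc ‖F (k + 1) (R u) - y (R u)‖
            = ‖(F (k + 1) (R u) - F k (R u)) + (F k (R u) - y (R u))‖ := by congr 1; abel
          _ ≤ ‖F (k + 1) (R u) - F k (R u)‖ + ‖F k (R u) - y (R u)‖ := norm_add_le _ _
          _ ≤ A * θ ^ k * ‖R u‖ ^ (N + 1) +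
              A * (∑ j ∈ Finset.range k, θ ^ j) * ‖R u‖ ^ (N + 1) := add_le_add h5 h4
          _ = _ := by rw [Finset.sum_range_succ]; ring
      rw [hFs (k + 1), hFs k]
      calc ‖Gi (F (k + 1) (R u)) - Gi (F k (R u))‖ ≤ K * ‖F (k + 1) (R u) - F k (R u)‖ :=
            hLip _ (hsmall (k + 1) _ (hmaps u hu) h6) _ (hsmall k _ (hmaps u hu) h4)
        _ ≤ K * (A * θ ^ k * ‖R u‖ ^ (N + 1)) := mul_le_mul_of_nonneg_left h5 hK
        _ ≤ K * (A * θ ^ k * (c * ‖u‖) ^ (N + 1)) := by gcongr; exact hRc u (hs0 hu)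
        _ = A * θ ^ (k + 1) * ‖u‖ ^ (N + 1) := by
            rw [mul_pow, pow_succ θ k]
            simp only [hθdef]
            ring
  have hgeoB : ∀ k : ℕ, A * (∑ j ∈ Finset.range k, θ ^ j) ≤ B := by
    intro k
    rw [hB, div_eq_mul_inv]
    refine mul_le_mul_of_nonneg_left ?_ hA0
    have h1 := (summable_geometric_of_lt_one hθ0 hθ).sum_le_tsum (Finset.range k)
      (fun j _ => by positivity)
    rwa [tsum_geometric_of_lt_one hθ0 hθ] at h1
  have hFd : ∀ k : ℕ, ∀ u ∈ ball (0:E) δ, DifferentiableAt ℂ (F k) u := by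
    intro k
    induction k with
    | zero =>
      intro u hu
      exact hyd.differentiableAt (isOpen_ball.mem_nhds (hs0 hu))
    | succ k ih =>
      intro u hu
      have h1 : DifferentiableAt ℂ R u := hRd.differentiableAt (isOpen_ball.mem_nhds (hs0 hu))
      exact (hGid _).comp u ((ih _ (hmaps u hu)).comp u h1)
  set f : ℕ → E → E := fun k u => F (k + 1) u - F k u with hf
  have hfb : ∀ k, ∀ u ∈ ball (0:E) δ, ‖f k u‖ ≤ A * θ ^ k := by
    intro k u hu
    have hu' : ‖u‖ < δ := by simpa using hu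
    have h1 := (hmain k u hu).2
    have h2 : ‖u‖ ^ (N + 1) ≤ 1 := pow_le_one₀ (norm_nonneg _) (hu'.le.trans hδ_o)
    calc ‖f k u‖ ≤ A * θ ^ k * ‖u‖ ^ (N + 1) := h1
      _ ≤ A * θ ^ k * 1 := mul_le_mul_of_nonneg_left h2 (by positivity)
      _ = _ := mul_one _
  have hfd : ∀ k, ∀ u ∈ ball (0:E) δ, DifferentiableAt ℂ (f k) u := fun k u hu =>
    (hFd (k + 1) u hu).sub (hFd k u hu)
  have hfder : ∀ k, ∀ u ∈ ball (0:E) (δ / 2), ‖fderiv ℂ (f k) u‖ ≤ A * θ ^ k / (δ / 4) := by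
    intro k u hu
    have hsub : closedBall u (δ / 4) ⊆ ball 0 δ := by
      intro w hw
      rw [mem_ball_zero_iff] at hu ⊢
      rw [mem_closedBall, dist_eq_norm] at hw
      calc ‖w‖ = ‖u + (w - u)‖ := by congr 1; abel
        _ ≤ ‖u‖ + ‖w - u‖ := norm_add_le _ _
        _ < δ := by linarith
    exact cauchy_fderiv (by positivity) (by positivity) (fun w hw => hfd k w (hsub hw))
      (fun w hw => hfb k w (hsub hw))
  have hsum : Summable (fun k => A * θ ^ k / (δ / 4)) :=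
    ((summable_geometric_of_lt_one hθ0 hθ).mul_left A).div_const _
  have hsumf : ∀ u ∈ ball (0:E) δ, Summable (fun k => f k u) := by
    intro u hu
    exact Summable.of_norm_bounded ((summable_geometric_of_lt_one hθ0 hθ).mul_left A)
      (fun k => hfb k u hu)
  have h0δ : (0:E) ∈ ball (0:E) (δ / 2) := mem_ball_self (by positivity)
  have hhalf : ball (0:E) (δ / 2) ⊆ ball 0 δ := ball_subset_ball (by linarith)
  have hder : ∀ u ∈ ball (0:E) (δ / 2), HasFDerivAt (fun y => ∑' k, f k y)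
      (∑' k, fderiv ℂ (f k) u) u := by
    intro u hu
    exact hasFDerivAt_tsum_of_isPreconnected (𝕜 := ℂ) hsum isOpen_ball
      (convex_ball (0:E) (δ / 2)).isPreconnected
      (fun k x hx => (hfd k x (hhalf hx)).hasFDerivAt) hfder h0δ
      (hsumf 0 (mem_ball_self hδ)) hu
  have hlim : ∀ u ∈ ball (0:E) δ, Tendsto (fun k => F k u) atTop (𝓝 (y u + ∑' k, f k u)) := by
    intro u hu
    have h1 := (hsumf u hu).hasSum.tendsto_sum_nat
    have h2 : ∀ k, F k u = y u + ∑ i ∈ Finset.range k, f i u := by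
      intro k
      induction k with
      | zero => simp [hF0]
      | succ k ih =>
        rw [Finset.sum_range_succ, ← add_assoc, ← ih]
        simp only [hf]
        abel
    simp only [h2]
    exact h1.const_add (y u)
  have hLy : ∀ u ∈ ball (0:E) δ, ‖∑' k, f k u‖ ≤ B * ‖u‖ ^ (N + 1) := by
    intro u hu
    have h1 : Tendsto (fun k => ‖F k u - y u‖) atTop (𝓝 ‖∑' k, f k u‖) := by
      have h2 := ((hlim u hu).sub_const (y u)).norm
      rwa [add_sub_cancel_left] at h2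
    refine le_of_tendsto' h1 fun k => ?_
    exact (hmain k u hu).1.trans (mul_le_mul_of_nonneg_right (hgeoB k) (by positivity))
  refine ⟨δ / 2, by positivity, fun u => y u + ∑' k, f k u, fun u hu => ?_, ?_, ?_,
    fun u hu => hRle u (hhalf hu), fun u hu => ?_⟩
  · exact ((hyd.differentiableAt (isOpen_ball.mem_nhds (hs0 (hhalf hu)))).add
      (hder u hu).differentiableAt).differentiableWithinAt
  · have h1 := hLy 0 (mem_ball_self hδ)
    rw [norm_zero, zero_pow (by omega), mul_zero, norm_le_zero_iff] at h1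
    simp only [h1, hy0, add_zero]
  · have h1 : HasFDerivAt (fun u => ∑' k, f k u) (0 : E →L[ℂ] E) 0 := by
      have h2 : (∑' k, f k 0) = 0 := by
        have h1 := hLy 0 (mem_ball_self hδ)
        rwa [norm_zero, zero_pow (by omega), mul_zero, norm_le_zero_iff] at h1
      rw [hasFDerivAt_iff_isLittleO]
      simp only [h2, sub_zero, _root_.zero_apply]
      have h3 : (fun u => ∑' k, f k u) =O[𝓝 0] fun u : E => ‖u‖ ^ (N + 1) := by
        refine IsBigO.of_bound B ?_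
        filter_upwards [ball_mem_nhds (0:E) hδ] with u hu
        have := hLy u hu
        rwa [Real.norm_of_nonneg (by positivity)]
      refine h3.trans_isLittleO ?_
      have h4 : (fun z : E => ‖z‖ ^ (N + 1)) =o[𝓝 0] fun z : E => ‖z‖ ^ 1 :=
        (isLittleO_pow_pow (𝕜 := ℝ) (by omega : 1 < N + 1)).comp_tendsto (by
          have : Tendsto (fun z : E => ‖z‖) (𝓝 0) (𝓝 ‖(0:E)‖) := continuous_norm.tendsto 0
          simpa using this)
      simp only [pow_one] at h4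
      exact h4.of_norm_right
    have h2 := hy1.add h1
    rw [add_zero] at h2
    exact h2
  · have hu2 := hhalf hu
    have h1 := hlim (R u) (hmaps u hu2)
    have h2 : Tendsto (fun k => Gi (F k (R u))) atTop (𝓝 (Gi (y (R u) + ∑' k, f k (R u)))) :=
      ((hGid.continuous.tendsto _).comp h1)
    have h3 : Tendsto (fun k => F (k + 1) u) atTop (𝓝 (y u + ∑' k, f k u)) :=
      (hlim u hu2).comp (tendsto_add_atTop_nat 1)
    have h4 := tendsto_nhds_unique h2 h3
    have h5 := congrArg G h4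
    rwa [hGi2] at h5

end Vale.Agent.P253.S445
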