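import Vale.Agent.P253.S445.Nf6
import Vale.Agent.P253.S445.Koe3

/-!
P253: conjugation of a holomorphic action of `ℂ` near an attracting fixed point to an automorphism
of the tangent space.
-/

open scoped Manifold ContDiff Topology Bundle
open Set Metric Complex Filter Bundle IsManifold Manifold Asymptotics Vale.Agent.P253.Mfd
  Vale.Agent.P253.CStar

set_option maxSynthPendingDepth 3
set_option linter.unusedSectionVars false

noncomputable section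

namespace Vale.Agent.P253.S445

open Vale.Agent.P253.R2 Vale.Agent.P253.R2.H445

section lin

variable {E : Type*} [NormedAddCommGroup E] [NormedSpace ℂ E] [FiniteDimensional ℂ E]

theorem ev_norm_le {f : E → E} {D : E →L[ℂ] E} (hf : HasFDerivAt f D 0) (hf0 : f 0 = 0) {b c : ℝ}
    (hbc : b < c) (hD : ∀ v, ‖D v‖ ≤ b * ‖v‖) : ∀ᶠ u in 𝓝 (0:E), ‖f u‖ ≤ c * ‖u‖ := by
  have h1 := (hasFDerivAt_iff_isLittleO.1 hf).def (sub_pos.2 hbc)
  filter_upwards [h1] with u hu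
  rw [hf0, sub_zero, sub_zero] at hu
  have h2 : ‖f u‖ ≤ ‖D u‖ + ‖f u - D u‖ := by
    calc ‖f u‖ = ‖D u + (f u - D u)‖ := by congr 1; abel
      _ ≤ _ := norm_add_le _ _
  linarith [hD u]

/-- the local conjugation of a contracting germ to a contracting automorphism -/
theorem local_conj {R : E → E} (hR : ∀ᶠ z in 𝓝 (0:E), DifferentiableAt ℂ R z)
    (hR0 : R 0 = 0) {D : E ≃L[ℂ] E} (hD : HasFDerivAt R (D : E →L[ℂ] E) 0) {b : ℝ} (hb : b < 1)
    (hDb : ∀ v, ‖D v‖ ≤ b * ‖v‖) :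
    ∃ δ > 0, ∃ L G Gi : E → E, DifferentiableOn ℂ L (ball 0 δ) ∧ L 0 = 0 ∧
      HasFDerivAt L (ContinuousLinearMap.id ℂ E) 0 ∧ (∀ u ∈ ball (0:E) δ, ‖R u‖ ≤ ‖u‖) ∧
      (∀ u ∈ ball (0:E) δ, L (R u) = G (L u)) ∧ (∀ w, Gi (G w) = w) ∧ (∀ w, G (Gi w) = w) ∧
      Differentiable ℂ G ∧ Differentiable ℂ Gi ∧
      ∀ w, Tendsto (fun k : ℕ => (G^[k]) w) atTop (𝓝 0) := by
  have hCE : CompleteSpace E := FiniteDimensional.complete ℂ E
  set b' : ℝ := max b 0 with hb'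
  have hb'1 : b' < 1 := max_lt hb one_pos
  have hb'0 : 0 ≤ b' := le_max_right _ _
  have hDb' : ∀ v, ‖(D : E →L[ℂ] E) v‖ ≤ b' * ‖v‖ := fun v =>
    (hDb v).trans (mul_le_mul_of_nonneg_right (le_max_left _ _) (norm_nonneg _))
  set c : ℝ := (b' + 1) / 2 with hc
  have hc0 : 0 ≤ c := by rw [hc]; linarith
  have hc1 : c < 1 := by rw [hc]; linarith
  have hbc : b' < c := by rw [hc]; linarith
  set K : ℝ := ‖(D.symm : E →L[ℂ] E)‖ + 1 with hK
  have hK0 : 0 ≤ K := by positivity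
  obtain ⟨N, hN, hθ⟩ : ∃ N : ℕ, 1 ≤ N ∧ K * c ^ (N + 1) < 1 := by
    have h1 : Tendsto (fun n : ℕ => K * c ^ (n + 1)) atTop (𝓝 (K * 0)) :=
      ((tendsto_pow_atTop_nhds_zero_of_lt_one hc0 hc1).comp (tendsto_add_atTop_nat 1)).const_mul K
    rw [mul_zero] at h1
    obtain ⟨n, h2, h3⟩ := ((eventually_ge_atTop 1).and (h1.eventually (gt_mem_nhds one_pos))).exists
    exact ⟨n, h2, h3⟩
  obtain ⟨y, G, Λ, hyd, hy0, hy1, hGd, hG0, hGΛ, hΛt, hO⟩ := normal_form hR hR0 hD hb hDb hN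
  have hGD : HasFDerivAt G (D : E →L[ℂ] E) 0 := by
    have h1 : HasFDerivAt (fun z => y (R z)) (D : E →L[ℂ] E) 0 := by
      have h2 : HasFDerivAt y (ContinuousLinearMap.id ℂ E) (R 0) := by rwa [hR0]
      have h3 := HasFDerivAt.comp (0:E) (g := y) h2 hD
      rwa [ContinuousLinearMap.id_comp] at h3
    have h2 : HasFDerivAt (fun z => G (y z)) (fderiv ℂ G 0) 0 := by
      have h3 : HasFDerivAt G (fderiv ℂ G 0) (y 0) := by
        rw [hy0]
        exact (hGd 0).hasFDerivAt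
      have h4 := HasFDerivAt.comp (0:E) (g := G) h3 hy1
      rwa [ContinuousLinearMap.comp_id] at h4
    have h3 : HasFDerivAt (fun z => y (R z) - G (y z)) (0 : E →L[ℂ] E) 0 := by
      rw [hasFDerivAt_iff_isLittleO]
      have h4 : y (R 0) - G (y 0) = 0 := by rw [hR0, hy0, hG0, sub_zero]
      simp only [h4, sub_zero, _root_.zero_apply]
      refine hO.trans_isLittleO ?_
      have h5 : (fun z : E => ‖z‖ ^ (N + 1)) =o[𝓝 0] fun z : E => ‖z‖ ^ 1 :=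
        (isLittleO_pow_pow (𝕜 := ℝ) (by omega : 1 < N + 1)).comp_tendsto (by
          have : Tendsto (fun z : E => ‖z‖) (𝓝 0) (𝓝 ‖(0:E)‖) := continuous_norm.tendsto 0
          simpa using this)
      simp only [pow_one] at h5
      exact h5.of_norm_right
    have h4 := (h1.sub h2).unique h3
    rw [sub_eq_zero] at h4
    rw [h4]
    exact (hGd 0).hasFDerivAt
  obtain ⟨Gi, hGi1, hGi2, hGid, hGt⟩ := exists_auto hGd hG0 hGD hGΛ hΛt hc0 hc1
    (ev_norm_le hGD hG0 hbc hDb')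
  -- the Lipschitz constant of the inverse
  have hGi0 : Gi 0 = 0 := by
    have := hGi1 0
    rwa [hG0] at this
  obtain ⟨ρ, hρ, hLip⟩ : ∃ ρ > 0, ∀ u ∈ ball (0:E) ρ, ∀ v ∈ ball (0:E) ρ,
      ‖Gi u - Gi v‖ ≤ K * ‖u - v‖ := by
    have h1 : ContDiffAt ℂ 1 Gi 0 :=
      (analyticAt_of_ev (Eventually.of_forall fun z => hGid z)).contDiffAt
    have h2 : HasFDerivAt Gi (fderiv ℂ Gi 0) (G 0) := by
      rw [hG0]
      exact (hGid 0).hasFDerivAt
    have h3 : HasFDerivAt (Gi ∘ G) ((fderiv ℂ Gi 0).comp (D : E →L[ℂ] E)) 0 := h2.comp 0 hGD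
    have h4 : Gi ∘ G = id := funext hGi1
    rw [h4] at h3
    have h5 : (fderiv ℂ Gi 0).comp (D : E →L[ℂ] E) = ContinuousLinearMap.id ℂ E :=
      h3.unique (hasFDerivAt_id _)
    have h6 : fderiv ℂ Gi 0 = (D.symm : E →L[ℂ] E) := by
      ext v
      have h7 := congrArg (fun T : E →L[ℂ] E => T (D.symm v)) h5
      simpa using h7
    have h7 : HasStrictFDerivAt Gi (D.symm : E →L[ℂ] E) 0 := by
      have := h1.hasStrictFDerivAt (by simp)
      rwa [h6] at this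
    obtain ⟨s, hs, hls⟩ := h7.exists_lipschitzOnWith_of_nnnorm_lt
      (‖(D.symm : E →L[ℂ] E)‖₊ + 1) (lt_add_one _)
    obtain ⟨ρ, hρ, hρs⟩ := Metric.mem_nhds_iff.1 hs
    refine ⟨ρ, hρ, fun u hu v hv => ?_⟩
    have h8 := hls.dist_le_mul u (hρs hu) v (hρs hv)
    rw [dist_eq_norm, dist_eq_norm] at h8
    push_cast at h8
    exact h8
  obtain ⟨C, hC, hCb⟩ := hO.exists_nonneg
  have hall : ∀ᶠ u in 𝓝 (0:E), DifferentiableAt ℂ R u ∧ ‖R u‖ ≤ c * ‖u‖ ∧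
      DifferentiableAt ℂ y u ∧ ‖y u‖ ≤ 3 / 2 * ‖u‖ ∧
      ‖y (R u) - G (y u)‖ ≤ C * ‖u‖ ^ (N + 1) := by
    filter_upwards [hR, ev_norm_le hD hR0 hbc hDb', hyd,
      ev_norm_le hy1 hy0 (b := 1) (c := 3 / 2) (by norm_num) (fun v => by simp), hCb.bound]
      with u h1 h2 h3 h4 h5
    refine ⟨h1, h2, h3, h4, ?_⟩
    rwa [Real.norm_of_nonneg (by positivity)] at h5
  obtain ⟨δ₀, hδ₀, hb₀⟩ := Metric.eventually_nhds_iff_ball.1 hall
  obtain ⟨δ, hδ, L, h1, h2, h3, h4, h5⟩ := exists_conj (R := R) (G := G) (Gi := Gi) (y := y)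
    hN hc0 hc1 hK0 hθ hC hδ₀ hρ hGi1 hGi2 hGid hGd.continuous hG0 hLip
    (fun u hu => (hb₀ u hu).1.differentiableWithinAt) (fun u hu => (hb₀ u hu).2.1)
    (fun u hu => (hb₀ u hu).2.2.1.differentiableWithinAt) (fun u hu => (hb₀ u hu).2.2.2.1)
    hy1 hy0 (fun u hu => (hb₀ u hu).2.2.2.2)
  exact ⟨δ, hδ, L, G, Gi, h1, h2, h3, h4, h5, hGi1, hGi2, hGd, hGid, hGt⟩

end lin

variable {E : Type*} [NormedAddCommGroup E] [NormedSpace ℂ E] [FiniteDimensional ℂ E]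
  {M : Type*} [MetricSpace M] [ChartedSpace E M] [IsManifold 𝓘(ℂ, E) 1 M]
  {ψ : ℂ → M → M} {p : M}

/-- local conjugation near the fixed point -/
theorem exists_localG (h : IsHolCFlow E ψ) (hp : ∀ ζ, ψ ζ p = p) {T : ℂ} {b : ℝ}
    (hb : b < 1) (hDb : ∀ v, ‖Dm E ψ p T v‖ ≤ b * ‖v‖) :
    ∃ (V : Set M) (Λ : M → E) (δ : ℝ) (L G Gi : E → E), IsOpen V ∧ p ∈ V ∧ 0 < δ ∧
      DifferentiableOn ℂ L (ball 0 δ) ∧ L 0 = 0 ∧
      HasFDerivAt L (ContinuousLinearMap.id ℂ E) 0 ∧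
      V = {x | x ∈ (chartAt E p).source ∧ chartAt E p x - chartAt E p p ∈ ball (0 : E) δ} ∧
      (∀ x, Λ x = L (chartAt E p x - chartAt E p p)) ∧
      (∀ u ∈ ball (0 : E) δ, u + chartAt E p p ∈ (chartAt E p).target) ∧
      (∀ x ∈ V, ψ T x ∈ V ∧ Λ (ψ T x) = G (Λ x)) ∧
      (∀ w, Gi (G w) = w) ∧ (∀ w, G (Gi w) = w) ∧ Differentiable ℂ G ∧ Differentiable ℂ Gi ∧
      ∀ w, Tendsto (fun k : ℕ => (G^[k]) w) atTop (𝓝 0) := by
  have hCE : CompleteSpace E := FiniteDimensional.complete ℂ E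
  set e := chartAt E p with he
  have hps : p ∈ e.source := mem_chart_source E p
  set z₀ := e p with hz₀
  have hRd : ∀ᶠ z in 𝓝 (0:E), DifferentiableAt ℂ (Rh E ψ p T) z := by
    have h1 : ContDiffAt ℂ 1 (Rh E ψ p T) 0 :=
      (contDiffAt_Rh h hp T).of_le (by simp)
    filter_upwards [h1.eventually (by simp)] with z hz
    exact hz.differentiableAt (by simp)
  obtain ⟨δ, hδ, L, G, Gi, hL, hL0, hL1, hR, hLR, hGi1, hGi2, hGd, hGid, hGt⟩ :=
    local_conj (R := Rh E ψ p T) hRd (Rh_zero hp T) (D := De h hp T) (hasFDerivAt_Rh h hp T) hb hDb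
  have h1 : ∀ᶠ u : E in 𝓝 0, (T, u + z₀) ∈ HCΩ ψ e e := by
    have hc : Continuous (fun u : E => (T, u + z₀)) := by fun_prop
    have h2 := hc.tendsto 0
    rw [zero_add] at h2
    exact h2.eventually ((isOpen_HCΩ' h).mem_nhds (mem_HCΩ_fixed hp T))
  obtain ⟨δ₁, hδ₁, hball⟩ := Metric.eventually_nhds_iff_ball.1 h1
  set δ' := min δ δ₁ with hδ'
  have hδ'0 : 0 < δ' := lt_min hδ hδ₁
  have hs : ball (0:E) δ' ⊆ ball 0 δ := ball_subset_ball (min_le_left _ _)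
  have hs₁ : ball (0:E) δ' ⊆ ball 0 δ₁ := ball_subset_ball (min_le_right _ _)
  refine ⟨_, fun x => L (e x - z₀), δ', L, G, Gi, ?_, ?_, hδ'0, hL.mono hs, hL0, hL1, rfl,
    fun x => rfl, fun u hu => (hball u (hs₁ hu)).1, ?_, hGi1, hGi2, hGd, hGid, hGt⟩
  · exact e.isOpen_inter_preimage ((continuous_sub_right z₀).isOpen_preimage _ isOpen_ball)
  · exact ⟨hps, by rw [sub_self]; exact mem_ball_self hδ'0⟩
  · rintro x ⟨hx1, hx2⟩
    have h3 : (e x - z₀) + z₀ = e x := sub_add_cancel _ _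
    have h4 : ψ T x ∈ e.source := by
      have h5 := (hball _ (hs₁ hx2)).2
      rw [h3] at h5
      simp only at h5
      rw [e.left_inv hx1] at h5
      exact h5
    have h5 : Rh E ψ p T (e x - z₀) = e (ψ T x) - z₀ := by
      simp only [Rh, HC]
      rw [← he, ← hz₀, h3, e.left_inv hx1]
    have h6 : ‖e (ψ T x) - z₀‖ ≤ ‖e x - z₀‖ := by
      rw [← h5]
      exact hR _ (hs hx2)
    refine ⟨⟨h4, ?_⟩, ?_⟩
    · rw [mem_ball_zero_iff] at hx2 ⊢
      exact h6.trans_lt hx2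
    · have h7 := hLR _ (hs hx2)
      rw [h5] at h7
      exact h7

end Vale.Agent.P253.S445
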