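import Vale.Agent.P253.S445.Cvg
import Vale.Agent.P253.S445.Nf8

/-!
P253: one-parameter semigroups of holomorphic self-maps with a globally asymptotically stable
point, without any condition on the differential.
-/

open scoped Manifold ContDiff Topology Bundle
open Set Metric Complex Filter Bundle IsManifold Manifold Vale.Agent.P253.Mfd
  Vale.Agent.P253.CStar

set_option maxSynthPendingDepth 3
set_option linter.unusedSectionVars false

noncomputable section

namespace Vale.Agent.P253.S445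

open Vale.Agent.P253.R2 Vale.Agent.P253.R2.H445

variable {E : Type*} [NormedAddCommGroup E] [NormedSpace ℂ E] [FiniteDimensional ℂ E]
  {M : Type*} [MetricSpace M] [ChartedSpace E M] [IsManifold 𝓘(ℂ, E) 1 M]
  {ψ : ℂ → M → M} {ρ : ℝ → M → M} {p : M}

/-- a holomorphic action of `ℂ` with an asymptotically stable fixed point for positive times
contracts the tangent space for some time -/
theorem exists_contr (h : IsHolCFlow E ψ) (hp : ∀ ζ, ψ ζ p = p)
    (hc : ConvergesTo (fun t : ℝ => ψ t) p) :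
    ∃ T : ℝ, 0 < T ∧ ∀ v, ‖Dm E ψ p T v‖ ≤ 1 / 4 * ‖v‖ := by
  have hCE : CompleteSpace E := FiniteDimensional.complete ℂ E
  have hPE : ProperSpace E := FiniteDimensional.proper ℂ E
  have hem : chartAt E p ∈ maximalAtlas 𝓘(ℂ, E) 1 M := chart_mem_maximalAtlas p
  have hps : p ∈ (chartAt E p).source := mem_chart_source E p
  set e := chartAt E p with he
  set z₀ := e p with hz₀
  have hlim : ∀ x, Tendsto (fun t : ℝ => ψ t x) atTop (𝓝 p) := hc.1
  have hWn : {x | x ∈ e.source ∧ e x ∈ ball z₀ 1} ∈ 𝓝 p := by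
    refine inter_mem (e.open_source.mem_nhds hps) ?_
    exact (e.continuousAt hps).preimage_mem_nhds (ball_mem_nhds _ one_pos)
  obtain ⟨U, hU, hUt⟩ := hc.2 _ hWn
  have hsym : Tendsto (fun u : E => e.symm (u + z₀)) (𝓝 0) (𝓝 p) := by
    have h1 := (e.continuousAt_symm (e.map_source hps)).tendsto
    rw [e.left_inv hps] at h1
    have h2 : Tendsto (fun u : E => u + z₀) (𝓝 0) (𝓝 z₀) := by
      have h3 : Continuous (fun u : E => u + z₀) := by fun_prop
      have h4 := h3.tendsto 0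
      rwa [zero_add] at h4
    exact h1.comp h2
  have htgt : ∀ᶠ u : E in 𝓝 0, u + z₀ ∈ e.target := by
    have h3 : Continuous (fun u : E => u + z₀) := by fun_prop
    have h4 := h3.tendsto 0
    rw [zero_add] at h4
    exact h4.eventually (e.open_target.mem_nhds (e.map_source hps))
  obtain ⟨r₀, hr₀, hball⟩ := Metric.eventually_nhds_iff_ball.1
    ((hsym.eventually hU).and htgt)
  set r := r₀ / 2 with hr
  have hr0 : 0 < r := by positivity
  have hcb : ∀ u ∈ closedBall (0:E) r, e.symm (u + z₀) ∈ U ∧ u + z₀ ∈ e.target := fun u hu =>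
    hball u (closedBall_subset_ball (by rw [hr]; linarith) hu)
  -- the maps in the chart
  have hRh : ∀ (t : ℝ) (u : E), Rh E ψ p t u = e (ψ t (e.symm (u + z₀))) - z₀ := fun t u => rfl
  have hev1 : ∀ᶠ t : ℝ in atTop, ∀ u ∈ closedBall (0:E) r,
      DifferentiableAt ℂ (Rh E ψ p t) u ∧ ‖Rh E ψ p t u‖ ≤ 1 := by
    filter_upwards [hUt] with t ht u hu
    obtain ⟨h1, h2⟩ := hcb u hu
    obtain ⟨h3, h4⟩ := ht _ h1
    refine ⟨?_, ?_⟩
    · have h5 : ((t : ℂ), u + z₀) ∈ HCΩ ψ e e := ⟨h2, h3⟩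
      have h6 : ContDiffAt ℂ ∞ (HC ψ e e) ((t : ℂ), u + z₀) :=
        (contDiffOn_HC_top h hem hem).contDiffAt ((isOpen_HCΩ' h).mem_nhds h5)
      have h7 : DifferentiableAt ℂ (HC ψ e e) ((t : ℂ), u + z₀) :=
        h6.differentiableAt (by simp)
      have h8 : DifferentiableAt ℂ (fun w : E => ((t : ℂ), w + z₀)) u := by fun_prop
      have h9 : DifferentiableAt ℂ (fun w : E => HC ψ e e ((t : ℂ), w + z₀)) u :=
        DifferentiableAt.comp u (g := HC ψ e e) h7 h8
      exact h9.sub_const _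
    · rw [hRh, ← dist_eq_norm]
      exact (mem_ball.1 h4).le
  have hpt : ∀ u ∈ closedBall (0:E) r, Tendsto (fun t : ℝ => Rh E ψ p t u) atTop (𝓝 0) := by
    intro u _
    have h1 := (e.continuousAt hps).tendsto.comp (hlim (e.symm (u + z₀)))
    have h2 := h1.sub_const z₀
    rw [← hz₀, sub_self] at h2
    exact h2
  have hη : 0 < r ^ 2 / 32 := by positivity
  obtain ⟨S, hSs, hSf, hSc⟩ := (isCompact_closedBall (0:E) (r / 2)).finite_cover_balls hη
  have hhalf : closedBall (0:E) (r / 2) ⊆ closedBall 0 r := closedBall_subset_closedBall (by linarith)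
  have hev2 : ∀ᶠ t : ℝ in atTop, ∀ u ∈ S, ‖Rh E ψ p t u‖ < r / 16 := by
    refine (eventually_all_finite hSf).2 fun u hu => ?_
    have h1 := (hpt u (hhalf (hSs hu))).eventually (ball_mem_nhds (0:E) (ε := r / 16) (by positivity))
    filter_upwards [h1] with t ht
    rwa [dist_zero_right] at ht
  obtain ⟨T, ⟨hT1, hT2⟩, hT0⟩ := ((hev1.and hev2).and (eventually_gt_atTop (0:ℝ))).exists
  refine ⟨T, hT0, fun v => ?_⟩
  set f := Rh E ψ p T with hf
  have hlip : ∀ u ∈ closedBall (0:E) (r / 2), ‖fderiv ℂ f u‖ ≤ 1 / (r / 2) := by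
    intro u hu
    have hsub : closedBall u (r / 2) ⊆ closedBall (0:E) r := by
      refine closedBall_subset_closedBall' ?_
      have := mem_closedBall.1 hu
      linarith
    exact cauchy_fderiv (by positivity) zero_le_one (fun w hw => (hT1 w (hsub hw)).1)
      (fun w hw => (hT1 w (hsub hw)).2)
  have hsmall : ∀ u ∈ closedBall (0:E) (r / 2), ‖f u‖ ≤ r / 8 := by
    intro u hu
    obtain ⟨w, hwS, hw⟩ := mem_iUnion₂.1 (hSc hu)
    have h1 : ‖f u - f w‖ ≤ 1 / (r / 2) * ‖u - w‖ :=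
      (convex_closedBall (0:E) (r / 2)).norm_image_sub_le_of_norm_fderiv_le
        (fun y hy => (hT1 y (hhalf hy)).1) hlip (hSs hwS) hu
    have h2 : ‖u - w‖ ≤ r ^ 2 / 32 := by
      rw [← dist_eq_norm]; exact (mem_ball.1 hw).le
    have h3 : 1 / (r / 2) * ‖u - w‖ ≤ r / 16 := by
      calc 1 / (r / 2) * ‖u - w‖ ≤ 1 / (r / 2) * (r ^ 2 / 32) :=
            mul_le_mul_of_nonneg_left h2 (by positivity)
        _ = r / 16 := by field_simp; ring
    have h4 : ‖f u‖ ≤ ‖f u - f w‖ + ‖f w‖ := by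
      have := norm_add_le (f u - f w) (f w)
      rwa [sub_add_cancel] at this
    have h5 := (hT2 w hwS).le
    linarith
  have hd : ‖fderiv ℂ f 0‖ ≤ (r / 8) / (r / 2) :=
    cauchy_fderiv (by positivity) (by positivity)
      (fun w hw => (hT1 w (hhalf hw)).1) hsmall
  have hDe : fderiv ℂ f 0 = Dm E ψ p T := (hasFDerivAt_Rh h hp T).fderiv
  rw [hDe] at hd
  have hq : (r / 8) / (r / 2) = 1 / 4 := by field_simp; ring
  rw [hq] at hd
  exact (ContinuousLinearMap.le_opNorm _ v).trans (mul_le_mul_of_nonneg_right hd (norm_nonneg _))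

/-- semigroups with a globally asymptotically stable point which extend to `ℂ` -/
theorem main_conv (hψ : IsHolCFlow E ψ) (he : ∀ t : ℝ, 0 ≤ t → ∀ x, ψ t x = ρ t x)
    (hp : ConvergesTo ρ p) :
    ∃ F : M ≃ₘ^1⟮𝓘(ℂ, E), 𝓘(ℂ, E)⟯ E, F p = 0 ∧
      (∀ v : E, (mfderiv 𝓘(ℂ, E) 𝓘(ℂ, E) F p : E → E) v = v) := by
  have hlimψ : ∀ x, Tendsto (fun t : ℝ => ψ t x) atTop (𝓝 p) := by
    intro x
    refine (hp.1 x).congr' ?_
    filter_upwards [eventually_ge_atTop (0:ℝ)] with t ht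
    exact (he t ht x).symm
  have hcψ : ConvergesTo (fun t : ℝ => ψ t) p := by
    refine ⟨hlimψ, fun W hW => ?_⟩
    obtain ⟨U, hU, hUt⟩ := hp.2 W hW
    refine ⟨U, hU, ?_⟩
    filter_upwards [hUt, eventually_ge_atTop (0:ℝ)] with t ht ht0 x hx
    rw [he t ht0]
    exact ht x hx
  have hfix : ∀ s : ℝ, 0 ≤ s → ψ s p = p := by
    intro s _
    have h1 : Tendsto (fun t : ℝ => ψ s (ψ t p)) atTop (𝓝 (ψ s p)) :=
      ((cflow_mdiff hψ s).continuous.tendsto p).comp (hlimψ p)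
    have h2 : Tendsto (fun t : ℝ => ψ s (ψ t p)) atTop (𝓝 p) := by
      have h3 := (hlimψ p).comp (tendsto_atTop_add_const_left atTop s tendsto_id)
      refine h3.congr fun t => ?_
      simp only [Function.comp, id, ofReal_add, hψ.add]
    exact tendsto_nhds_unique h1 h2
  have hfixψ := fixed_pos hψ hfix
  obtain ⟨T, hT, hDb⟩ := exists_contr hψ hfixψ hcψ
  obtain ⟨F, h0, h1⟩ := basin_T hψ hfixψ hT (by norm_num) hDb hlimψ
  exact ⟨F, h0, fun v => by rw [h1.mfderiv]; rfl⟩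

/-- homotheties converge uniformly near the centre -/
theorem thom_converges (F : M ≃ₘ^1⟮𝓘(ℂ, E), 𝓘(ℂ, E)⟯ E) :
    ConvergesTo (thom F) (F.symm 0) := by
  refine ⟨(thom_contr F).1, fun W hW => ?_⟩
  have h1 : F.symm ⁻¹' W ∈ 𝓝 (0:E) := F.symm.continuous.continuousAt.preimage_mem_nhds hW
  obtain ⟨r, hr, hball⟩ := Metric.mem_nhds_iff.1 h1
  refine ⟨F ⁻¹' ball 0 r, ?_, ?_⟩
  · refine F.continuous.continuousAt.preimage_mem_nhds ?_
    rw [F.apply_symm_apply]
    exact ball_mem_nhds _ hr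
  · filter_upwards [eventually_ge_atTop (0:ℝ)] with t ht x hx
    apply hball
    have h2 : F x ∈ ball (0:E) r := hx
    rw [mem_ball_zero_iff] at h2 ⊢
    rw [norm_smul, norm_exp]
    have h3 : (-(t:ℂ)).re = -t := by simp
    rw [h3]
    have h4 : Real.exp (-t) ≤ 1 := Real.exp_le_one_iff.2 (by linarith)
    calc Real.exp (-t) * ‖F x‖ ≤ 1 * ‖F x‖ := mul_le_mul_of_nonneg_right h4 (norm_nonneg _)
      _ < r := by rwa [one_mul]

/-- globally asymptotically stable semigroups characterize `ℂⁿ` -/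
theorem iff_conv (hExt : HasSExt E M) :
    Nonempty (M ≃ₘ^1⟮𝓘(ℂ, E), 𝓘(ℂ, E)⟯ E) ↔
      ∃ ρ : ℝ → M → M, H567.IsHolSemigroup E ρ ∧ ∃ p : M, ConvergesTo ρ p := by
  constructor
  · rintro ⟨F⟩
    exact ⟨thom F, (thom_semi F).isHolSemigroup, F.symm 0, thom_converges F⟩
  · rintro ⟨ρ, hρ, p, hp⟩
    obtain ⟨ψ, hψ, he⟩ := hExt ρ hρ
    obtain ⟨F, -⟩ := main_conv hψ he hp
    exact ⟨F⟩

end Vale.Agent.P253.S445
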