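import Vale.Agent.P253.R2.H445.Dom

/-!
P253: a germ tangent to the identity which commutes with a pinched contraction is the identity.
-/

open scoped ContDiff Topology
open Set Metric Filter

noncomputable section

namespace Vale.Agent.P253.S445

/-- `c₂² < c₁`: iteration of `G R = R G` -/
theorem iter_id {F : Type*} [NormedAddCommGroup F] {G R : F → F} {c₁ c₂ C δ : ℝ}
    (hδ : 0 < δ) (hc₁ : 0 < c₁) (hc₂ : 0 ≤ c₂) (hc₂1 : c₂ ≤ 1) (hcc : c₂ ^ 2 < c₁) (hC : 0 ≤ C)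
    (h1 : ∀ u ∈ ball (0:F) δ, ∀ v ∈ ball (0:F) δ, c₁ * ‖u - v‖ ≤ ‖R u - R v‖)
    (h2 : ∀ u ∈ ball (0:F) δ, ‖R u‖ ≤ c₂ * ‖u‖)
    (hG : ∀ u ∈ ball (0:F) δ, ‖G u - u‖ ≤ C * ‖u‖ ^ 2)
    (hc : ∀ u ∈ ball (0:F) δ, G (R u) = R (G u)) :
    ∀ᶠ u in 𝓝 (0:F), G u = u := by
  set δ' : ℝ := δ / (1 + C * δ) with hδ'
  have hCδ : 0 < 1 + C * δ := by positivity
  have hδ'0 : 0 < δ' := by positivity
  have hδ'le : δ' ≤ δ := div_le_self hδ.le (by nlinarith [mul_nonneg hC hδ.le])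
  have hsub : ball (0:F) δ' ⊆ ball 0 δ := ball_subset_ball hδ'le
  have hGb : ∀ u ∈ ball (0:F) δ', G u ∈ ball (0:F) δ := by
    intro u hu
    have hu' : ‖u‖ < δ' := by simpa using hu
    have h3 := hG u (hsub hu)
    have h4 : ‖G u‖ ≤ ‖u‖ + C * ‖u‖ ^ 2 := by
      calc ‖G u‖ = ‖u + (G u - u)‖ := by congr 1; abel
        _ ≤ ‖u‖ + ‖G u - u‖ := norm_add_le _ _
        _ ≤ _ := by linarith
    have h5 : ‖u‖ + C * ‖u‖ ^ 2 ≤ ‖u‖ * (1 + C * δ) := by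
      have : ‖u‖ ≤ δ := hu'.le.trans hδ'le
      have h6 : C * (‖u‖ * ‖u‖) ≤ C * (‖u‖ * δ) :=
        mul_le_mul_of_nonneg_left (mul_le_mul_of_nonneg_left this (norm_nonneg u)) hC
      nlinarith [h6]
    have h7 : ‖u‖ * (1 + C * δ) < δ := by
      rwa [hδ', lt_div_iff₀ hCδ] at hu'
    simpa using (h4.trans h5).trans_lt h7
  have key : ∀ u ∈ ball (0:F) δ', ∀ k : ℕ, R^[k] u ∈ ball (0:F) δ' ∧ ‖R^[k] u‖ ≤ c₂ ^ k * ‖u‖ ∧
      c₁ ^ k * ‖G u - u‖ ≤ ‖G (R^[k] u) - R^[k] u‖ := by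
    intro u hu k
    induction k with
    | zero => simpa using hu
    | succ k ih =>
      obtain ⟨ih1, ih2, ih3⟩ := ih
      rw [Function.iterate_succ_apply']
      set y := R^[k] u with hy
      have hyδ := hsub ih1
      have h3 : ‖R y‖ ≤ c₂ * ‖y‖ := h2 y hyδ
      refine ⟨?_, ?_, ?_⟩
      · have h4 : ‖y‖ < δ' := by simpa using ih1
        have h5 : ‖R y‖ ≤ ‖y‖ := h3.trans (mul_le_of_le_one_left (norm_nonneg _) hc₂1)
        simpa using h5.trans_lt h4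
      · calc ‖R y‖ ≤ c₂ * ‖y‖ := h3
          _ ≤ c₂ * (c₂ ^ k * ‖u‖) := mul_le_mul_of_nonneg_left ih2 hc₂
          _ = _ := by ring
      · rw [hc y hyδ]
        calc c₁ ^ (k + 1) * ‖G u - u‖ = c₁ * (c₁ ^ k * ‖G u - u‖) := by ring
          _ ≤ c₁ * ‖G y - y‖ := mul_le_mul_of_nonneg_left ih3 hc₁.le
          _ ≤ _ := h1 _ (hGb y ih1) _ hyδ
  filter_upwards [ball_mem_nhds (0:F) hδ'0] with u hu
  have hle : ∀ k : ℕ, ‖G u - u‖ ≤ (c₂ ^ 2 / c₁) ^ k * (C * ‖u‖ ^ 2) := by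
    intro k
    obtain ⟨h3, h4, h5⟩ := key u hu k
    have h6 := hG _ (hsub h3)
    have h7 : ‖R^[k] u‖ ^ 2 ≤ (c₂ ^ k * ‖u‖) ^ 2 := by gcongr
    have h8 : c₁ ^ k * ‖G u - u‖ ≤ C * (c₂ ^ k * ‖u‖) ^ 2 :=
      h5.trans (h6.trans (mul_le_mul_of_nonneg_left h7 hC))
    have h9 : 0 < c₁ ^ k := by positivity
    rw [div_pow, div_mul_eq_mul_div, le_div_iff₀ h9]
    calc ‖G u - u‖ * c₁ ^ k = c₁ ^ k * ‖G u - u‖ := by ring
      _ ≤ _ := h8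
      _ = _ := by ring
  have hlim : Tendsto (fun k : ℕ => (c₂ ^ 2 / c₁) ^ k * (C * ‖u‖ ^ 2)) atTop (𝓝 0) := by
    have h3 : Tendsto (fun k : ℕ => (c₂ ^ 2 / c₁) ^ k) atTop (𝓝 0) :=
      tendsto_pow_atTop_nhds_zero_of_lt_one (by positivity) ((div_lt_one hc₁).2 hcc)
    simpa using h3.mul_const (C * ‖u‖ ^ 2)
  have h3 : ‖G u - u‖ ≤ 0 := ge_of_tendsto' hlim hle
  have h4 : G u - u = 0 := norm_le_zero_iff.1 h3
  exact sub_eq_zero.1 h4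

/-- a `C²` germ with vanishing value and derivative is quadratically small -/
theorem quad {F F' : Type*} [NormedAddCommGroup F] [NormedSpace ℂ F] [NormedAddCommGroup F']
    [NormedSpace ℂ F'] {h : F → F'} (hh : ContDiffAt ℂ 2 h 0) (h0 : h 0 = 0)
    (h1 : fderiv ℂ h 0 = 0) :
    ∃ C δ : ℝ, 0 ≤ C ∧ 0 < δ ∧ ∀ u ∈ ball (0:F) δ, ‖h u‖ ≤ C * ‖u‖ ^ 2 := by
  have h2 : ContDiffAt ℂ 1 (fderiv ℂ h) 0 := hh.fderiv_right (by norm_num)
  obtain ⟨K, t, ht, hK⟩ := h2.exists_lipschitzOnWith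
  have h3 : ∀ᶠ u in 𝓝 (0:F), DifferentiableAt ℂ h u := by
    have h4 := hh.eventually (by simp)
    filter_upwards [h4] with u hu
    exact hu.differentiableAt (by simp)
  obtain ⟨δ, hδ, hball⟩ := Metric.mem_nhds_iff.1 (inter_mem ht h3)
  refine ⟨K, δ, K.2, hδ, fun u hu => ?_⟩
  have hu' : ‖u‖ < δ := by simpa using hu
  have hsub : closedBall (0:F) ‖u‖ ⊆ ball 0 δ := closedBall_subset_ball hu'
  have h5 : ∀ x ∈ closedBall (0:F) ‖u‖, ‖fderiv ℂ h x‖ ≤ K * ‖u‖ := by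
    intro x hx
    have h6 := hK.dist_le_mul x (hball (hsub hx)).1 0 (hball (mem_ball_self hδ)).1
    rw [h1, dist_zero_right, dist_zero_right] at h6
    have h7 : ‖x‖ ≤ ‖u‖ := by simpa using hx
    exact h6.trans (mul_le_mul_of_nonneg_left h7 K.2)
  have h6 := (convex_closedBall (0:F) ‖u‖).norm_image_sub_le_of_norm_fderiv_le (𝕜 := ℂ)
    (fun x hx => (hball (hsub hx)).2) h5 (mem_closedBall_self (norm_nonneg u))
    (y := u) (by simp)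
  rw [h0, sub_zero, sub_zero] at h6
  calc ‖h u‖ ≤ K * ‖u‖ * ‖u‖ := h6
    _ = K * ‖u‖ ^ 2 := by ring

/-- a germ tangent to the identity which commutes with a contraction whose derivative `D`
satisfies `a ‖v‖ ≤ ‖D v‖ ≤ b ‖v‖`, `b² < a`, is the identity -/
theorem unip {F : Type*} [NormedAddCommGroup F] [NormedSpace ℂ F] {G R : F → F} {D : F →L[ℂ] F}
    {a b : ℝ} (ha : 0 < a) (hb0 : 0 ≤ b) (hb : b < 1) (hab : b ^ 2 < a)
    (hDa : ∀ v, a * ‖v‖ ≤ ‖D v‖) (hDb : ∀ v, ‖D v‖ ≤ b * ‖v‖)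
    (hG : ContDiffAt ℂ 2 G 0) (hG0 : G 0 = 0)
    (hG1 : HasFDerivAt G (ContinuousLinearMap.id ℂ F) 0)
    (hR0 : R 0 = 0) (hR : HasStrictFDerivAt R D 0)
    (hc : ∀ᶠ u in 𝓝 (0:F), G (R u) = R (G u)) : ∀ᶠ u in 𝓝 (0:F), G u = u := by
  -- room
  obtain ⟨η, hη, hη1, hη2, hη3⟩ : ∃ η : ℝ, 0 < η ∧ b + η ≤ 1 ∧ η < a ∧ (b + η) ^ 2 < a - η := by
    have h1 : Tendsto (fun η : ℝ => (b + η) ^ 2 - (a - η)) (𝓝[>] 0) (𝓝 ((b + 0) ^ 2 - (a - 0))) :=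
      (Continuous.tendsto (by fun_prop) 0).mono_left nhdsWithin_le_nhds
    have h2 : ∀ᶠ η : ℝ in 𝓝[>] 0, (b + η) ^ 2 - (a - η) < 0 :=
      h1.eventually (gt_mem_nhds (by simp only [add_zero, sub_zero]; linarith))
    have h3 : ∀ᶠ η : ℝ in 𝓝[>] 0, η ∈ Ioo 0 (min (1 - b) a) :=
      Ioo_mem_nhdsGT (lt_min (by linarith) ha)
    obtain ⟨η, h4, h5⟩ := (h2.and h3).exists
    have h6 := h5.2
    rw [lt_min_iff] at h6
    exact ⟨η, h5.1, by linarith [h6.1], h6.2, by linarith⟩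
  have h1 := hR.isLittleO.def hη
  rw [nhds_prod_eq, eventually_prod_self_iff'] at h1
  obtain ⟨t, ht, h1⟩ := h1
  obtain ⟨C, δ₁, hC, hδ₁, hquad⟩ := quad (h := fun u => G u - u) (hG.sub contDiffAt_id)
    (by simp [hG0]) (by
      have h2 : HasFDerivAt (fun u => G u - u)
          (ContinuousLinearMap.id ℂ F - ContinuousLinearMap.id ℂ F) 0 := hG1.sub (hasFDerivAt_id 0)
      rw [h2.fderiv, sub_self])
  obtain ⟨δ, hδ, hball⟩ := Metric.mem_nhds_iff.1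
    (inter_mem (inter_mem ht hc) (ball_mem_nhds (0:F) hδ₁))
  refine iter_id (G := G) (R := R) (c₁ := a - η) (c₂ := b + η) (C := C) hδ (by linarith)
    (by linarith) hη1 hη3 hC ?_ ?_ (fun u hu => hquad u (hball hu).2) (fun u hu => (hball hu).1.2)
  · intro u hu v hv
    have h2 := h1 u (hball hu).1.1 v (hball hv).1.1
    simp only at h2
    have h3 := hDa (u - v)
    have h4 : ‖D (u - v)‖ ≤ ‖R u - R v‖ + ‖R u - R v - D (u - v)‖ := by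
      have : D (u - v) = (R u - R v) - (R u - R v - D (u - v)) := by abel
      calc ‖D (u - v)‖ = ‖(R u - R v) - (R u - R v - D (u - v))‖ := by rw [← this]
        _ ≤ _ := norm_sub_le _ _
    linarith
  · intro u hu
    have h2 := h1 u (hball hu).1.1 0 (hball (mem_ball_self hδ)).1.1
    simp only [hR0, sub_zero] at h2
    have h3 := hDb u
    have h4 : ‖R u‖ ≤ ‖D u‖ + ‖R u - D u‖ := by
      calc ‖R u‖ = ‖D u + (R u - D u)‖ := by congr 1; abel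
        _ ≤ _ := norm_add_le _ _
    linarith

end Vale.Agent.P253.S445
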